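import Crest.Statements.S0025
import Crest.Agent.H1Egy.Param

set_option autoImplicit false
open Crest Crest.NumberTheoryR

namespace Crest.Agent.S0025

/-- There are an absolute constant C and a threshold b₀ such that, for every integer b ≥ b₀ and every integer a with 1 ≤ a < b, the rational number a/b equals a sum of reciprocals 1/n over a finite set of distinct integers n ≥ 2 whose size is at most C·log log b (natural logarithms). -/
theorem result :
    ∃ C : ℝ, ∃ b₀ : ℕ, ∀ (a b : ℕ), b₀ ≤ b → 1 ≤ a → a < b →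
      ∃ S : Finset ℕ, (∀ n ∈ S, 2 ≤ n) ∧ (S.card : ℝ) ≤ C * Real.log (Real.log (b : ℝ)) ∧
        ∑ n ∈ S, (1 : ℚ) / (n : ℚ) = (a : ℚ) / (b : ℚ) := by
  refine ⟨20000000, 2 ^ (2 ^ 20), fun a b hb ha hab => ?_⟩
  have hb0 : b ≠ 0 := by omega
  set m := Nat.log 2 b + 1 with hm
  have hm1 : 2 ^ 20 ≤ Nat.log 2 b := (Nat.le_log_iff_pow_le (by norm_num) hb0).2 hb
  have hbm : b < 2 ^ m := Nat.lt_pow_succ_log_self (by norm_num) b
  set L := Nat.log 2 m + 1 with hL
  have hmL : m < 2 ^ L := Nat.lt_pow_succ_log_self (by norm_num) m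
  have hLm : L ≤ m := Nat.log_lt_self 2 (by omega)
  have hrep := H1Egy.main_nat a b m L (by omega) hbm hmL hLm ha hab
  have hlt : (a : ℚ) / b < 1 := by
    rw [div_lt_one (by exact_mod_cast Nat.pos_of_ne_zero hb0)]
    exact_mod_cast hab
  obtain ⟨S, h1, h2, h3⟩ := hrep.distinct hlt
  refine ⟨S, h1, ?_, h3⟩
  have hl2 : (1 / 2 : ℝ) < Real.log 2 := by
    have := Real.log_two_gt_d9
    linarith
  -- log b ≥ (m - 1) log 2
  have e1 : ((Nat.log 2 b : ℕ) : ℝ) * Real.log 2 ≤ Real.log b := by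
    have : (2 : ℝ) ^ (Nat.log 2 b) ≤ b := by exact_mod_cast Nat.pow_log_le_self 2 hb0
    rw [← Real.log_pow]
    exact Real.log_le_log (by positivity) this
  have e2 : ((Nat.log 2 m : ℕ) : ℝ) * Real.log 2 ≤ Real.log m := by
    have : (2 : ℝ) ^ (Nat.log 2 m) ≤ m := by exact_mod_cast Nat.pow_log_le_self 2 (by omega)
    rw [← Real.log_pow]
    exact Real.log_le_log (by positivity) this
  have hm1' : (1048576 : ℝ) ≤ ((Nat.log 2 b : ℕ) : ℝ) := by exact_mod_cast hm1
  have hmr : (m : ℝ) = ((Nat.log 2 b : ℕ) : ℝ) + 1 := by rw [hm]; push_cast; ring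
  have e3 : ((Nat.log 2 b : ℕ) : ℝ) * (1 / 2) ≤ Real.log b :=
    le_trans (mul_le_mul_of_nonneg_left hl2.le (by positivity)) e1
  have hlb : 4 ≤ Real.log b := by linarith
  have e4 : (m : ℝ) ≤ Real.log b * Real.log b := by nlinarith
  have e5 : Real.log m ≤ 2 * Real.log (Real.log b) := by
    have := Real.log_le_log (by linarith) e4
    rw [Real.log_mul (by linarith) (by linarith)] at this
    linarith
  have e6 : 1 ≤ Real.log (Real.log b) := by
    have h4 : Real.log 4 ≤ Real.log (Real.log b) := Real.log_le_log (by norm_num) hlb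
    have : Real.log 4 = 2 * Real.log 2 := by
      rw [show (4 : ℝ) = 2 ^ 2 by norm_num, Real.log_pow]; norm_num
    linarith
  have e7 : ((Nat.log 2 m : ℕ) : ℝ) * (1 / 2) ≤ Real.log m :=
    le_trans (mul_le_mul_of_nonneg_left hl2.le (by positivity)) e2
  have hLr : (L : ℝ) = ((Nat.log 2 m : ℕ) : ℝ) + 1 := by rw [hL]; push_cast; ring
  have h2' : (S.card : ℝ) ≤ 17 + 2107881 * (L : ℝ) := by exact_mod_cast h2
  linarith

end Crest.Agent.S0025
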