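import Crest.Statements.S0069
import Crest.Agent.Lead.BorsukZ
import Crest.Agent.Lead.BorsukSAT

set_option autoImplicit false
open Crest Crest.CombinatoricsR

namespace Crest.Agent.S0069

open Crest.Agent.LeadBorsuk

theorem no_good (c : E → Fin 10) (ε : ℝ) (h : Good c ε) : False := by
  classical
  obtain ⟨σ, hc, hσ⟩ := F0 h
  obtain ⟨τ, hτc, hd, hτ⟩ : ∃ τ : Finset (Fin 10), τ.card = 3 ∧ Disjoint σ τ ∧ Fac c τ := by
    obtain ⟨τ, h1, h2⟩ := Finset.exists_subset_card_eq (s := σᶜ) (n := 3) (by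
      rw [Finset.card_compl, hc]; decide)
    have hd : Disjoint σ τ := Finset.disjoint_left.2 (fun i hi hi' => by simpa [hi] using h1 hi')
    rcases propCompl h hσ hc h2 hd with h3 | h3
    · exact ⟨τ, h2, hd, h3⟩
    · refine ⟨_, ?_, ?_, h3⟩
      · rw [Finset.card_compl, Finset.card_union_of_disjoint hd, hc, h2]; rfl
      · rw [Finset.disjoint_left]; intro i hi; simp [hi]
  obtain ⟨v, hv, hF⟩ := propC h hσ hc hτ hτc hd
  obtain ⟨a1, a2, a3, b1, b2, b3, hσ'⟩ := Finset.card_eq_three.1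
    (show (σ.erase v).card = 3 by rw [Finset.card_erase_of_mem hv, hc])
  obtain ⟨a4, a5, a6, b4, b5, b6, rfl⟩ := Finset.card_eq_three.1 hτc
  have hσ2 : σ = {v, a1, a2, a3} := by rw [← hσ', Finset.insert_erase hv]
  have n1 : v ≠ a1 ∧ v ≠ a2 ∧ v ≠ a3 := by
    have := Finset.notMem_erase v σ
    rw [hσ'] at this
    simpa [not_or] using this
  rw [hσ2] at hd
  simp only [Finset.disjoint_insert_left, Finset.disjoint_singleton_left, Finset.mem_insert,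
    Finset.mem_singleton, not_or] at hd
  have hinj : Function.Injective (![v, a1, a2, a3, a4, a5, a6] : Fin 7 → Fin 10) := by
    have : (List.ofFn (![v, a1, a2, a3, a4, a5, a6] : Fin 7 → Fin 10)).Nodup := by
      simp [List.ofFn_succ, n1, hd, b1, b2, b3, b4, b5, b6]
    exact List.nodup_ofFn.1 this
  obtain ⟨π, hπ⟩ := Equiv.Perm.exists_extending_pair (![v, a1, a2, a3, a4, a5, a6] : Fin 7 → Fin 10)
    (![0, 1, 2, 3, 4, 5, 6] : Fin 7 → Fin 10) hinj (by decide)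
  have hG : Good (π ∘ c) ε := ⟨h.pos, fun x => by simp [h.even], fun x y hx hy hxy =>
    h.sep x y hx hy (π.injective hxy)⟩
  have hmap : ∀ S : Finset (Fin 10), Fac c S → Fac (π ∘ c) (S.image π) := by
    rintro S ⟨x, hx1, hx2⟩
    refine ⟨x, hx1, fun i hi => ?_⟩
    obtain ⟨j, hj, rfl⟩ := Finset.mem_image.1 hi
    simpa using hx2 j hj
  have p0 : π v = 0 := hπ 0
  have p1 : π a1 = 1 := hπ 1
  have p2 : π a2 = 2 := hπ 2
  have p3 : π a3 = 3 := hπ 3
  have p4 : π a4 = 4 := hπ 4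
  have p5 : π a5 = 5 := hπ 5
  have p6 : π a6 = 6 := hπ 6
  refine sat_core (Fac (π ∘ c)) (fun _ _ h1 h2 => h1.mono h2)
    (fun _ _ h1 h2 h3 h4 => no_four hG h1 h2 h3 h4) (fun _ _ _ h1 h2 h3 => G3 hG h1 h2 h3)
    (fun _ _ h1 h2 h3 h4 => propCompl hG h1 h2 h3 h4)
    (fun _ _ h1 h2 h3 h4 => propCyc hG h1 h2 h3 h4)
    (fun _ _ h1 h2 h3 h4 h5 => propC hG h1 h2 h3 h4 h5) ?_ ?_
  · have := hmap _ hσ
    rw [hσ2] at this
    simpa [Finset.image_insert, p0, p1, p2, p3] using this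
  · have := hmap _ hF
    simpa [Finset.image_insert, p0, p4, p5, p6] using this

noncomputable def R (x : E) : EuclideanSpace ℝ (Fin 9) :=
  !₂[x 0 ^ 2 + x 1 ^ 2 - x 2 ^ 2 - x 3 ^ 2, 2 * (x 1 * x 2 - x 0 * x 3), 2 * (x 1 * x 3 + x 0 * x 2),
    2 * (x 1 * x 2 + x 0 * x 3), x 0 ^ 2 - x 1 ^ 2 + x 2 ^ 2 - x 3 ^ 2, 2 * (x 2 * x 3 - x 0 * x 1),
    2 * (x 1 * x 3 - x 0 * x 2), 2 * (x 2 * x 3 + x 0 * x 1), x 0 ^ 2 - x 1 ^ 2 - x 2 ^ 2 + x 3 ^ 2]

lemma R_neg (x : E) : R (-x) = R x := by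
  simp [R]

lemma R_dist (x y : E) (hx : ‖x‖ = 1) (hy : ‖y‖ = 1) :
    dist (R x) (R y) ^ 2 = 8 * (1 - (inner ℝ x y) ^ 2) := by
  have h1 := EuclideanSpace.real_norm_sq_eq x
  have h2 := EuclideanSpace.real_norm_sq_eq y
  rw [hx, Fin.sum_univ_four] at h1
  rw [hy, Fin.sum_univ_four] at h2
  have h3 : inner ℝ x y = x 0 * y 0 + x 1 * y 1 + x 2 * y 2 + x 3 * y 3 := by
    simp [PiLp.inner_apply, Fin.sum_univ_four, mul_comm]
  rw [dist_eq_norm, EuclideanSpace.real_norm_sq_eq, h3]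
  simp only [Fin.sum_univ_succ, R, PiLp.sub_apply, Matrix.cons_val_zero, Matrix.cons_val_succ,
    Finset.univ_eq_empty, Finset.sum_empty]
  linear_combination (-3 * (1 + x 0 ^ 2 + x 1 ^ 2 + x 2 ^ 2 + x 3 ^ 2) -
    2 * (y 0 ^ 2 + y 1 ^ 2 + y 2 ^ 2 + y 3 ^ 2)) * h1 +
    (-3 * (1 + y 0 ^ 2 + y 1 ^ 2 + y 2 ^ 2 + y 3 ^ 2) - 2) * h2

/-- Some bounded subset of nine-dimensional Euclidean space with at least two points cannot be split into ten parts of strictly smaller diameter: however its points are assigned to ten classes, some class has diameter at least that of the whole set. -/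
theorem result :
    ∃ S : Set (EuclideanSpace ℝ (Fin 9)), Bornology.IsBounded S ∧ S.Nontrivial ∧
      ∀ c : EuclideanSpace ℝ (Fin 9) → Fin 10, ∃ i : Fin 10,
        Metric.diam S ≤ Metric.diam (S ∩ c ⁻¹' {i}) := by
  have hd : ∀ a ∈ R '' {x | ‖x‖ = 1}, ∀ b ∈ R '' {x | ‖x‖ = 1}, dist a b ≤ √8 := by
    rintro _ ⟨x, hx, rfl⟩ _ ⟨y, hy, rfl⟩
    apply Real.le_sqrt_of_sq_le
    rw [R_dist x y hx hy]
    nlinarith [sq_nonneg (inner ℝ x y)]
  have hb : Bornology.IsBounded (R '' {x | ‖x‖ = 1}) :=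
    Metric.isBounded_iff.2 ⟨√8, fun a ha b hb => hd a ha b hb⟩
  refine ⟨R '' {x | ‖x‖ = 1}, hb, ?_, ?_⟩
  · refine ⟨R (EuclideanSpace.single 0 1), ⟨_, by simp, rfl⟩, R (EuclideanSpace.single 1 1),
      ⟨_, by simp, rfl⟩, ?_⟩
    intro h
    have := R_dist (EuclideanSpace.single 0 1) (EuclideanSpace.single 1 1) (by simp) (by simp)
    rw [h] at this
    simp [EuclideanSpace.inner_single_left] at this
  · intro c
    by_contra hc
    push Not at hc
    have h8 : Metric.diam (R '' {x | ‖x‖ = 1}) ≤ √8 :=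
      Metric.diam_le_of_forall_dist_le (by positivity) hd
    obtain ⟨i0, -, hi0⟩ := Finset.exists_max_image Finset.univ
      (fun i => Metric.diam (R '' {x | ‖x‖ = 1} ∩ c ⁻¹' {i})) Finset.univ_nonempty
    set δ := Metric.diam (R '' {x | ‖x‖ = 1} ∩ c ⁻¹' {i0}) with hδ
    have hδ0 : 0 ≤ δ := Metric.diam_nonneg
    have hδ1 : δ < √8 := (hc i0).trans_le h8
    have hδ2 : δ ^ 2 < 8 := (Real.lt_sqrt hδ0).1 hδ1
    apply no_good (fun x => c (R x)) (√(1 - δ ^ 2 / 8))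
    refine ⟨Real.sqrt_pos.2 (by linarith), fun x => by rw [R_neg], fun x y hx hy hxy => ?_⟩
    apply Real.sqrt_le_iff.2 ⟨abs_nonneg _, ?_⟩
    have h1 : dist (R x) (R y) ≤ δ := by
      refine le_trans ?_ (hi0 (c (R x)) (Finset.mem_univ _))
      exact Metric.dist_le_diam_of_mem (hb.subset Set.inter_subset_left) ⟨⟨x, hx, rfl⟩, rfl⟩
        ⟨⟨y, hy, rfl⟩, hxy.symm⟩
    have h2 := pow_le_pow_left₀ dist_nonneg h1 2
    rw [R_dist x y hx hy] at h2
    rw [sq_abs]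
    linarith

end Crest.Agent.S0069
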