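import Crest.Statements.S0085
import Crest.Agent.H2.BF9

set_option autoImplicit false
open Crest Crest.CombinatoricsR

namespace Crest.Agent.S0085

/-- For every real C > 0 there are a natural number n, a Boolean function f on the n-dimensional Boolean cube and a natural number d such that: f is non-constant; every Fourier–Walsh coefficient of f (values and inputs read as signs +1 for true and -1 for false, averaged over the uniform cube) indexed by a set of more than d coordinates vanishes, so f has degree at most d; and the sum of the n singleton Fourier–Walsh coefficients of f exceeds C times the square root of d. -/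
theorem result (C : ℝ) (hC : 0 < C) :
    ∃ n : ℕ, ∃ f : (Fin n → Bool) → Bool, ∃ d : ℕ,
      (∃ x y, f x ≠ f y) ∧
      (∀ S : Finset (Fin n), d < S.card →
        ∑ x : Fin n → Bool, ((if f x then (1 : ℝ) else -1) * ∏ i ∈ S, (if x i then (1 : ℝ) else -1)) = 0) ∧
      C * Real.sqrt d <
        ∑ i : Fin n, (∑ x : Fin n → Bool, ((if f x then (1 : ℝ) else -1) * (if x i then (1 : ℝ) else -1))) / 2 ^ n := by
  obtain ⟨ι, _, _, f, d, h1, h2, h3⟩ := H2BF.final C
  let e := Fintype.equivFin ι
  refine ⟨Fintype.card ι, fun x => f (fun i => x (e i)), d, ?_, fun S hS => ?_, ?_⟩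
  · by_contra hcon
    push Not at hcon
    have hc : ∀ x, f x = f (fun _ => true) := fun x => by
      simpa using hcon (fun i => x (e.symm i)) (fun _ => true)
    rw [H2BF.Ex_congr (G := fun x => H2BF.sg (f (fun _ => true)) * ∑ i, H2BF.sg (x i))
      (fun x => by rw [hc x, mul_comm]), H2BF.Ex_smul, H2BF.Ex_sg] at h2
    simp at h2
  · exact (h1.comp e).fourier S hS
  · refine h3.trans_le (le_of_eq ?_)
    rw [← H2BF.Ex_reindex e, ← Finset.sum_div, Finset.sum_comm, H2BF.Ex, Finset.sum_div]
    refine Finset.sum_congr rfl (fun x _ => ?_)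
    rw [Equiv.sum_comp e (fun i => H2BF.sg (x i)), ← Finset.mul_sum]
    simp only [H2BF.hb, H2BF.sg, Finset.prod_const, Finset.card_univ, Fintype.card_fin]
    rw [one_div, inv_pow]
    ring

end Crest.Agent.S0085
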