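import Crest.Statements.S0100
import Crest.Agent.H2.UF16

set_option autoImplicit false
open Crest Crest.AnalysisR

namespace Crest.Agent.S0100

open H2UF Finset Real in
/-- For every real `ε` with `0 < ε < 1` there is a threshold `N₀` such that for every integer `N ≥ N₀` one can choose signs `c 0, …, c (N-1)` in `{-1, 1}` so that the polynomial `∑ k, c k * z ^ k` has modulus between `(1 - ε) * √N` and `(1 + ε) * √N` at every complex number `z` of modulus one. -/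
theorem result (ε : ℝ) (hε : 0 < ε)
    (hε₁ : ε < 1) :
    ∃ N₀ : ℕ, ∀ N ≥ N₀, ∃ c : Fin N → ℤˣ, ∀ z : ℂ, ‖z‖ = 1 →
      (1 - ε) * Real.sqrt N ≤ ‖∑ k : Fin N, ((c k : ℤ) : ℂ) * z ^ (k : ℕ)‖ ∧
        ‖∑ k : Fin N, ((c k : ℤ) : ℂ) * z ^ (k : ℕ)‖ ≤ (1 + ε) * Real.sqrt N := by
  obtain ⟨η, hη, hr⟩ := rounding (half_pos hε)
  obtain ⟨e, he, e1, e2⟩ : ∃ e, 0 < e ∧ e ≤ ε / 14 ∧ e ≤ η / 14 :=
    ⟨min (ε / 14) (η / 14), by positivity, min_le_left _ _, min_le_right _ _⟩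
  obtain ⟨N₀, h⟩ := Filter.eventually_atTop.1 (flat_real he (by linarith))
  refine ⟨N₀, fun N hN => ?_⟩
  obtain ⟨x, x1, x2⟩ := h N hN
  have h0 : 0 < 1 + 6 * e := by linarith
  have hN0 := sqrt_nonneg (N : ℝ)
  have x3 : ∀ θ : ℝ, (1 - 7 * e) * √N ≤ ‖∑ k : Fin N, (x k / (1 + 6 * e) : ℝ) * ee ((k : ℕ) * θ)‖ ∧
      ‖∑ k : Fin N, (x k / (1 + 6 * e) : ℝ) * ee ((k : ℕ) * θ)‖ ≤ √N := fun θ => by
    obtain ⟨h1, h2⟩ := abs_le.1 (x2 θ)
    rw [sum_range fun k => x k * ee (k * θ)] at h1 h2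
    simp only [Complex.ofReal_div, div_mul_eq_mul_div, ← sum_div, norm_div, Complex.norm_real,
      Real.norm_of_nonneg h0.le]
    rw [le_div_iff₀ h0, div_le_iff₀ h0]
    constructor <;> nlinarith [mul_nonneg he.le hN0, mul_nonneg (sq_nonneg e) hN0]
  obtain ⟨s, s1, s2⟩ := hr N (fun k => x k / (1 + 6 * e)) (fun k => by
    rw [abs_div, abs_of_pos h0, div_le_one h0]; exact x1 k) (by
    have p := parseval (univ : Finset (Fin N)) (fun k => (x k / (1 + 6 * e) : ℝ))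
      (fun k => (k : ℕ)) fun a _ b _ h => Fin.ext (by simpa using h)
    have p2 := intervalIntegral.integral_mono_on (μ := MeasureTheory.volume) zero_le_one
      (f := fun _ => ((1 - 7 * e) * √N) ^ 2) (g := fun θ : ℝ =>
        ‖∑ k : Fin N, (x k / (1 + 6 * e) : ℝ) * ee ((k : ℕ) * θ)‖ ^ 2)
      intervalIntegrable_const (Continuous.intervalIntegrable (by fun_prop) _ _)
      fun θ _ => pow_le_pow_left₀ (mul_nonneg (by linarith) hN0) (x3 θ).1 2
    simp only [Int.cast_natCast, Complex.norm_real, Real.norm_eq_abs, sq_abs] at p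
    rw [p, intervalIntegral.integral_const, mul_pow, sq_sqrt (Nat.cast_nonneg _)] at p2
    simp only [sum_sub_distrib, sum_const, card_univ, Fintype.card_fin, nsmul_eq_mul, sub_zero,
      smul_eq_mul] at p2 ⊢
    have : (0 : ℝ) ≤ N := Nat.cast_nonneg _
    nlinarith [mul_nonneg (sq_nonneg e) this])
  refine ⟨fun k => if s k = 1 then 1 else -1, fun z hz => ?_⟩
  obtain ⟨θ, rfl⟩ := exists_ee hz
  have e3 : ∑ k : Fin N, (((if s k = 1 then 1 else -1 : ℤˣ) : ℤ) : ℂ) * ee θ ^ (k : ℕ)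
      = ∑ k : Fin N, (x k / (1 + 6 * e) : ℝ) * ee ((k : ℕ) * θ)
        + ∑ k : Fin N, ((s k - x k / (1 + 6 * e) : ℝ) : ℂ) * ee ((k : ℕ) * θ) := by
    rw [← sum_add_distrib]
    refine sum_congr rfl fun k _ => ?_
    rw [← add_mul, ← Complex.ofReal_add, add_sub_cancel, ee_nat_mul]
    rcases s1 k with h | h <;> norm_num [h]
  rw [e3]
  obtain ⟨h1, h2⟩ := x3 θ
  have h3 := s2 θ
  refine ⟨le_trans ?_ (norm_sub_le_norm_add _ _), (norm_add_le _ _).trans ?_⟩ <;> nlinarith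

end Crest.Agent.S0100
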