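import Crest.Statements.S0170
import Crest.Agent.H6.BoxTube

set_option autoImplicit false
open scoped ContDiff
open Crest.AnalysisR.BoxFlow
open Crest Crest.AnalysisR

namespace Crest.Agent.S0170

open Crest.Agent.H6Eff

lemma fin_pos {κ : Type*} [Finite κ] (d : κ → ℝ) (hd : ∀ i, 0 < d i) :
    ∃ δ : ℝ, 0 < δ ∧ ∀ i, δ ≤ d i := by
  obtain ⟨δ, h1, h2⟩ := (Set.finite_range d).isCompact.exists_forall_le' continuousOn_id
    (a := (0 : ℝ)) (by rintro _ ⟨i, rfl⟩; exact hd i)
  exact ⟨δ, h1, fun i => h2 _ ⟨i, rfl⟩⟩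

lemma unif_pos {κ : Type*} [Finite κ] (f : κ → ℝ → ℝ)
    (hf : ∀ i, ContinuousOn (f i) (Set.Icc 0 1)) (hpos : ∀ i, ∀ θ ∈ Set.Icc (0 : ℝ) 1, 0 < f i θ) :
    ∃ δ : ℝ, 0 < δ ∧ ∀ i, ∀ θ ∈ Set.Icc (0 : ℝ) 1, δ ≤ f i θ := by
  choose d h1 h2 using fun i => isCompact_Icc.exists_forall_le' (hf i) (hpos i)
  obtain ⟨δ, h3, h4⟩ := fin_pos d h1
  exact ⟨δ, h3, fun i θ hθ => (h4 i).trans (h2 i θ hθ)⟩

lemma unif_bdd {κ : Type*} [Finite κ] (f : κ → ℝ → ℝ)
    (hf : ∀ i, ContinuousOn (f i) (Set.Icc 0 1)) :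
    ∃ M : ℝ, 0 ≤ M ∧ ∀ i, ∀ θ ∈ Set.Icc (0 : ℝ) 1, |f i θ| ≤ M := by
  choose d h2 using fun i => isCompact_Icc.exists_bound_of_continuousOn (hf i)
  obtain ⟨M, hM⟩ := (Set.finite_range d).bddAbove
  exact ⟨max M 0, le_max_right _ _, fun i θ hθ =>
    (h2 i θ hθ).trans ((hM ⟨i, rfl⟩).trans (le_max_left _ _))⟩

lemma exists_margin {κ : Type*} [Finite κ] (x y : κ → ℝ) (hx : ∀ i, 0 < x i)
    (hxy : ∀ i, x i < y i) : ∃ ν : ℝ, 0 < ν ∧ ∀ i, (1 + 2 * ν) * x i ≤ y i := by
  obtain ⟨δ, h1, h2⟩ := fin_pos (fun i => (y i - x i) / (2 * x i)) fun i =>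
    div_pos (sub_pos.mpr (hxy i)) (by have := hx i; positivity)
  refine ⟨δ, h1, fun i => ?_⟩
  have := h2 i
  rw [le_div_iff₀ (by have := hx i; positivity)] at this
  linarith

lemma margin_boxes {n : ℕ} {a h : Fin n → Fin 3 → ℚ} (hh : ∀ i j, 0 < h i j)
    (ha : Pairwise fun i i' => Disjoint (box (a i) (h i)) (box (a i') (h i'))) :
    ∃ ν : ℝ, 0 < ν ∧ ∀ i i', i ≠ i' →
      ∃ j, (1 + 2 * ν) * ((h i j : ℝ) + h i' j) ≤ |(a i j : ℝ) - a i' j| := by
  choose J hJ using fun x : {x : Fin n × Fin n // x.1 ≠ x.2} =>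
    exists_sep_of_disjoint (hh x.1.1) (hh x.1.2) (ha x.2)
  obtain ⟨ν, h1, h2⟩ := exists_margin
    (fun x : {x : Fin n × Fin n // x.1 ≠ x.2} => (h x.1.1 (J x) : ℝ) + h x.1.2 (J x))
    (fun x => |(a x.1.1 (J x) : ℝ) - a x.1.2 (J x)|)
    (fun x => by
      have a1 := hh x.1.1 (J x); have a2 := hh x.1.2 (J x)
      exact_mod_cast add_pos a1 a2) (fun x => by exact_mod_cast hJ x)
  exact ⟨ν, h1, fun i i' hi => ⟨_, h2 ⟨(i, i'), hi⟩⟩⟩

noncomputable def th (α β : ℚ) (t : ℝ) : ℝ := Real.smoothTransition (α * t - β)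

lemma leff_th (α β : ℚ) : LEff fun p : X => th α β p.1 :=
  (((LEff.const α).mul LEff.time).sub (LEff.const β)).sT

lemma th_mem (α β : ℚ) (t : ℝ) : th α β t ∈ Set.Icc (0 : ℝ) 1 :=
  ⟨Real.smoothTransition.nonneg _, Real.smoothTransition.le_one _⟩

lemma th_zero {α β : ℚ} {t : ℝ} (h : (α : ℝ) * t ≤ β) : th α β t = 0 :=
  Real.smoothTransition.zero_of_nonpos (by linarith)

lemma th_one {α β : ℚ} {t : ℝ} (h : (β : ℝ) + 1 ≤ α * t) : th α β t = 1 :=
  Real.smoothTransition.one_of_one_le (by linarith)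

lemma deriv_eq_zero_of {f : ℝ → ℝ} {u v : ℝ} (h0 : ∀ t, t ≤ 1 / 4 → f t = u)
    (h1 : ∀ t, 3 / 4 ≤ t → f t = v) (t : ℝ) (ht : t ∉ Set.Icc (1 / 4 : ℝ) (3 / 4)) :
    deriv f t = 0 := by
  rw [Set.mem_Icc, not_and_or, not_le, not_le] at ht
  rcases ht with ht | ht
  · have : f =ᶠ[nhds t] fun _ => u := by
      filter_upwards [Iio_mem_nhds ht] with s hs using h0 s (le_of_lt hs)
    rw [this.deriv_eq, deriv_const]
  · have : f =ᶠ[nhds t] fun _ => v := by
      filter_upwards [Ioi_mem_nhds ht] with s hs using h1 s (le_of_lt hs)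
    rw [this.deriv_eq, deriv_const]

/-- Finitely many pairwise disjoint rational boxes in 3-space are carried onto disjoint target boxes, each a translated determinant-one positive diagonal rescaling of its source, by the time-one flow of a smooth, compactly supported, effective, divergence-free velocity field active only in [1/4,3/4]. The flow equals the prescribed affine map on a neighbourhood of each source box. Effective: computably approximable mixed derivatives at rational points and computable global derivative bounds. -/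
theorem result
    (n : ℕ) (a b h k : Fin n → Fin 3 → ℚ)
    (hh : ∀ i j, 0 < h i j) (hk : ∀ i j, 0 < k i j)
    (ha : Pairwise fun i i' => Disjoint (box (a i) (h i)) (box (a i') (h i')))
    (hb : Pairwise fun i i' => Disjoint (box (b i) (k i)) (box (b i') (k i')))
    (hvol : ∀ i, ∏ j : Fin 3, k i j / h i j = 1) :
    ∃ (U : Field) (Φ : ℝ → (Fin 3 → ℝ) → (Fin 3 → ℝ)),
      ContDiff ℝ ∞ U ∧ HasCompactSupport U ∧ Effective U ∧
      (∀ p : ℝ × (Fin 3 → ℝ), p.1 ∉ Set.Icc (1 / 4 : ℝ) (3 / 4) → U p = 0) ∧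
      (∀ p : ℝ × (Fin 3 → ℝ), spaceDiv U p = 0) ∧ IsFlow U Φ ∧
      ∀ i : Fin n, ∃ O : Set (Fin 3 → ℝ), IsOpen O ∧ box (a i) (h i) ⊆ O ∧
        ∀ x ∈ O, Φ 1 x = fun j => (b i j : ℝ) + ((k i j / h i j : ℚ) : ℝ) * (x j - (a i j : ℝ)) := by
  obtain ⟨ν₁, hν₁, ha'⟩ := margin_boxes hh ha
  obtain ⟨ν₂, hν₂, hb'⟩ := margin_boxes hk hb
  obtain ⟨ν, hν0, hν1⟩ := exists_rat_btwn (lt_min hν₁ hν₂)
  have hν : 0 < ν := by exact_mod_cast hν0
  have hh' : ∀ i j, (0 : ℝ) < h i j := fun i j => by exact_mod_cast hh i j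
  have hk' : ∀ i j, (0 : ℝ) < k i j := fun i j => by exact_mod_cast hk i j
  have hA : ∀ i i', i ≠ i' →
      ∃ j, (1 + 2 * (ν : ℝ)) * ((h i j : ℝ) + h i' j) ≤ |(a i j : ℝ) - a i' j| := by
    intro i i' hi
    obtain ⟨j, hj⟩ := ha' i i' hi
    refine ⟨j, le_trans (mul_le_mul_of_nonneg_right ?_ (add_pos (hh' i j) (hh' i' j)).le) hj⟩
    linarith [hν1.le.trans (min_le_left _ _)]
  have hB : ∀ i i', i ≠ i' →
      ∃ j, (1 + 2 * (ν : ℝ)) * ((k i j : ℝ) + k i' j) ≤ |(b i j : ℝ) - b i' j| := by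
    intro i i' hi
    obtain ⟨j, hj⟩ := hb' i i' hi
    refine ⟨j, le_trans (mul_le_mul_of_nonneg_right ?_ (add_pos (hk' i j) (hk' i' j)).le) hj⟩
    linarith [hν1.le.trans (min_le_right _ _)]
  obtain ⟨w, hw⟩ := exists_generic (κ := Fin n × Fin n)
    (fun x j => (a x.1 j : ℝ) - a x.2 j) (fun x j => (b x.1 j : ℝ) - b x.2 j)
  set P : Fin n → Fin 3 → ℝ → ℝ := fun i j θ =>
    (1 - θ) * a i j + θ * b i j + θ * (1 - θ) * (((i : ℕ) * w j : ℚ) : ℝ) with hP
  set g : Fin n → Fin 3 → ℝ → ℝ := fun i j θ => (1 - θ) * h i j + θ * k i j with hg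
  set G : Fin n → Fin 3 → ℝ → ℝ := fun i j θ =>
    if j = 2 then ((h i 0 * h i 1 * h i 2 : ℚ) : ℝ) * (g i 0 θ * g i 1 θ)⁻¹ else g i j θ with hG
  have hgpos : ∀ i j, ∀ θ ∈ Set.Icc (0 : ℝ) 1, 0 < g i j θ := by
    intro i j θ hθ
    have a1 := hh' i j; have a2 := hk' i j
    have a3 := mul_nonneg (sub_nonneg.mpr hθ.2) a1.le
    have a4 := mul_nonneg hθ.1 a2.le
    rcases eq_or_lt_of_le hθ.1 with h0 | h0
    · simp only [hg, ← h0]; simpa using a1
    · have := mul_pos h0 a2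
      simp only [hg]; linarith
  have hgc : ∀ i j, Continuous (g i j) := fun i j => by simp only [hg]; fun_prop
  have hGpos : ∀ i j, ∀ θ ∈ Set.Icc (0 : ℝ) 1, 0 < G i j θ := by
    intro i j θ hθ
    simp only [hG]
    split_ifs
    · have a0 := hh' i 0; have a1 := hh' i 1; have a2 := hh' i 2
      have a3 := hgpos i 0 θ hθ; have a4 := hgpos i 1 θ hθ
      push_cast; positivity
    · exact hgpos i j θ hθ
  have hGc : ∀ i j, ContinuousOn (G i j) (Set.Icc 0 1) := by
    intro i j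
    simp only [hG]
    split_ifs
    · exact continuousOn_const.mul (((hgc i 0).mul (hgc i 1)).continuousOn.inv₀
        fun θ hθ => (mul_pos (hgpos i 0 θ hθ) (hgpos i 1 θ hθ)).ne')
    · exact (hgc i j).continuousOn
  have hG0 : ∀ i j, G i j 0 = h i j := by
    intro i j
    simp only [hG, hg]
    split_ifs with hj
    · have a0 := hh' i 0; have a1 := hh' i 1
      subst hj; push_cast
      simp only [sub_zero, one_mul, zero_mul, add_zero]
      field_simp
    · ring
  have hG1 : ∀ i j, G i j 1 = k i j := by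
    intro i j
    simp only [hG, hg]
    split_ifs with hj
    · have a0 := hk i 0; have a1 := hk i 1
      have b0 := hh i 0; have b1 := hh i 1; have b2 := hh i 2
      have := hvol i
      rw [Fin.prod_univ_three] at this
      have e : h i 0 * h i 1 * h i 2 = k i 0 * k i 1 * k i 2 := by
        field_simp at this; linarith
      have a0 := hk' i 0; have a1 := hk' i 1
      subst hj; rw [e]; push_cast; field_simp; ring
    · ring
  have hP0 : ∀ i j, P i j 0 = a i j := fun i j => by simp [hP]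
  have hP1 : ∀ i j, P i j 1 = b i j := fun i j => by simp [hP]
  have hPc : ∀ i j, Continuous (P i j) := fun i j => by simp only [hP]; fun_prop
  obtain ⟨δ, hδ0, hδ⟩ := unif_pos (fun x : Fin n × Fin 3 => G x.1 x.2) (fun x => hGc _ _)
    fun x => hGpos _ _
  obtain ⟨δ', hδ0', hδ'⟩ := unif_pos (fun (i : Fin n) θ => g i 0 θ * g i 1 θ)
    (fun i => ((hgc i 0).mul (hgc i 1)).continuousOn)
    fun i θ hθ => mul_pos (hgpos i 0 θ hθ) (hgpos i 1 θ hθ)
  obtain ⟨M, hM0, hM⟩ := unif_bdd (fun x : Fin n × Fin 3 => G x.1 x.2) (fun x => hGc _ _)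
  obtain ⟨M', hM0', hM'⟩ := unif_bdd (fun x : Fin n × Fin 3 => P x.1 x.2)
    (fun x => (hPc _ _).continuousOn)
  obtain ⟨ε, hε0, hε⟩ := unif_pos (fun (x : {x : Fin n × Fin n // x.1 ≠ x.2}) θ =>
      ‖fun j => P x.1.1 j θ - P x.1.2 j θ‖)
    (fun x => (continuous_pi fun j => (hPc _ j).sub (hPc _ j)).norm.continuousOn) (by
      rintro ⟨⟨i, i'⟩, hi⟩ θ hθ
      rw [norm_pos_iff]
      intro h0
      have h0' : ∀ j, P i j θ - P i' j θ = 0 := fun j => congrFun h0 j
      rcases eq_or_lt_of_le hθ.1 with h1 | h1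
      · obtain ⟨j, hj⟩ := hA i i' hi
        have := h0' j
        rw [← h1, hP0, hP0] at this
        rw [this, abs_zero] at hj
        have a1 := hh' i j; have a2 := hh' i' j
        have : 0 < (1 + 2 * (ν : ℝ)) * ((h i j : ℝ) + h i' j) := by positivity
        linarith
      rcases eq_or_lt_of_le hθ.2 with h2 | h2
      · obtain ⟨j, hj⟩ := hB i i' hi
        have := h0' j
        rw [h2, hP1, hP1] at this
        rw [this, abs_zero] at hj
        have a1 := hk' i j; have a2 := hk' i' j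
        have : 0 < (1 + 2 * (ν : ℝ)) * ((k i j : ℝ) + k i' j) := by positivity
        linarith
      refine hw (i, i') (Submodule.mem_span_pair.mpr ?_)
      have hii : ((i : ℕ) : ℝ) - (i' : ℕ) ≠ 0 := by
        rw [sub_ne_zero]
        intro e
        exact hi (Fin.ext (by exact_mod_cast e))
      have h3 : 1 - θ ≠ 0 := (sub_pos.mpr h2).ne'
      refine ⟨-(θ * (((i : ℕ) : ℝ) - (i' : ℕ)))⁻¹, -((1 - θ) * (((i : ℕ) : ℝ) - (i' : ℕ)))⁻¹, ?_⟩
      ext j
      have := h0' j
      simp only [hP] at this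
      simp only [Pi.add_apply, Pi.smul_apply, smul_eq_mul, ratPoint]
      push_cast at this
      field_simp
      linarith)
  obtain ⟨S, hS⟩ := exists_nat_ge ((1 + 2 * (ν : ℝ)) * (M + M) / ε + 1)
  have hS1 : (1 : ℝ) ≤ S := by
    have : 0 ≤ (1 + 2 * (ν : ℝ)) * (M + M) / ε := by positivity
    linarith
  have hS2 : (1 + 2 * (ν : ℝ)) * (M + M) ≤ S * ε := by
    rw [← div_le_iff₀ hε0]; linarith
  set s : ℝ → ℝ := fun t => 1 + (((S : ℚ) - 1 : ℚ) : ℝ) * (th 8 2 t - th 8 5 t) with hs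
  have hs1 : ∀ t, 1 ≤ s t := fun t => by
    have : th 8 5 t ≤ th 8 2 t := Real.smoothTransition.monotone (by push_cast; linarith)
    simp only [hs]; push_cast
    nlinarith
  have hsS : ∀ t, s t ≤ S := fun t => by
    have a1 := (th_mem 8 5 t).1
    have a2 := (th_mem 8 2 t).2
    simp only [hs]; push_cast
    nlinarith
  have hsE : LEff fun p : X => s p.1 :=
    (LEff.const 1).of_eq (g := fun _ => 1) (fun _ => by simp) |>.add
      ((LEff.const _).mul ((leff_th 8 2).sub (leff_th 8 5)))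
  have h1E : LEff fun p : X => 1 - th 4 (3 / 2) p.1 :=
    (LEff.const 1).of_eq (g := fun _ => 1) (fun _ => by simp) |>.sub (leff_th _ _)
  have hgE : ∀ i j, LEff fun p : X => g i j (th 4 (3 / 2) p.1) := fun i j =>
    (h1E.mul (LEff.const _)).add ((leff_th _ _).mul (LEff.const _))
  have hs0 : ∀ t : ℝ, t ≤ 1 / 4 → s t = 1 := fun t ht => by
    simp only [hs]
    rw [th_zero (by push_cast; linarith), th_zero (by push_cast; linarith)]; ring
  have hs0' : ∀ t : ℝ, 3 / 4 ≤ t → s t = 1 := fun t ht => by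
    simp only [hs]
    rw [th_one (by push_cast; linarith), th_one (by push_cast; linarith)]; ring
  have ht0 : ∀ t : ℝ, t ≤ 3 / 8 → th 4 (3 / 2) t = 0 := fun t ht =>
    th_zero (by push_cast; linarith)
  have ht1 : ∀ t : ℝ, 5 / 8 ≤ t → th 4 (3 / 2) t = 1 := fun t ht =>
    th_one (by push_cast; linarith)
  obtain ⟨U, Φ, h1, h2, h3, h4, h5, h6, h7⟩ := exists_flow_of_tubes
    (fun i j t => s t * P i j (th 4 (3 / 2) t)) (fun i j t => G i j (th 4 (3 / 2) t)) ν hν
    (fun i j => hsE.mul (((h1E.mul (LEff.const _)).add ((leff_th _ _).mul (LEff.const _))).add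
      (((leff_th _ _).mul h1E).mul (LEff.const _))))
    (fun i j => by
      simp only [hG]
      split_ifs
      · exact (LEff.const _).mul (((hgE i 0).mul (hgE i 1)).inv δ' hδ0'
          fun p => hδ' i _ (th_mem _ _ _))
      · exact hgE i j)
    δ hδ0 (fun i j t => hδ (i, j) _ (th_mem _ _ _)) (S * M' + M)
    (fun i j t => by
      have a1 := hM' (i, j) _ (th_mem 4 (3 / 2) t)
      have a2 := hs1 t
      rw [abs_mul, abs_of_pos (by linarith)]
      have := mul_le_mul (hsS t) a1 (abs_nonneg _) (by linarith)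
      linarith)
    (fun i j t => by
      have a1 := (le_abs_self _).trans (hM (i, j) _ (th_mem 4 (3 / 2) t))
      have : 0 ≤ (S : ℝ) * M' := by positivity
      linarith)
    (fun i => ⟨((h i 0 * h i 1 * h i 2 : ℚ) : ℝ), fun t => by
      have a1 := hgpos i 0 _ (th_mem 4 (3 / 2) t)
      have a2 := hgpos i 1 _ (th_mem 4 (3 / 2) t)
      simp only [hG, if_true, show (0 : Fin 3) ≠ 2 by decide, show (1 : Fin 3) ≠ 2 by decide,
        if_false]
      field_simp⟩)
    (fun i j t ht => ⟨deriv_eq_zero_of (u := a i j) (v := b i j)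
        (fun t ht => by rw [hs0 t ht, ht0 t (by linarith), hP0, one_mul])
        (fun t ht => by rw [hs0' t ht, ht1 t (by linarith), hP1, one_mul]) t ht,
      deriv_eq_zero_of (u := h i j) (v := k i j)
        (fun t ht => by rw [ht0 t (by linarith), hG0])
        (fun t ht => by rw [ht1 t (by linarith), hG1]) t ht⟩)
    (fun t i i' hi => by
      have a2 := hs1 t
      simp only [← mul_sub, abs_mul, abs_of_pos (show 0 < s t by linarith)]
      rcases le_total t (3 / 8) with c1 | c1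
      · obtain ⟨j, hj⟩ := hA i i' hi
        refine ⟨j, ?_⟩
        rw [ht0 t c1, hG0, hG0, hP0, hP0]
        exact hj.trans (le_mul_of_one_le_left (abs_nonneg _) a2)
      rcases le_total (5 / 8) t with c2 | c2
      · obtain ⟨j, hj⟩ := hB i i' hi
        refine ⟨j, ?_⟩
        rw [ht1 t c2, hG1, hG1, hP1, hP1]
        exact hj.trans (le_mul_of_one_le_left (abs_nonneg _) a2)
      have e : s t = S := by
        simp only [hs]
        rw [th_one (by push_cast; linarith), th_zero (by push_cast; linarith)]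
        push_cast; ring
      obtain ⟨j, hj⟩ : ∃ j, ε ≤ |P i j (th 4 (3 / 2) t) - P i' j (th 4 (3 / 2) t)| := by
        by_contra hne
        push Not at hne
        exact absurd (hε ⟨(i, i'), hi⟩ _ (th_mem 4 (3 / 2) t))
          (not_le.mpr ((pi_norm_lt_iff hε0).mpr hne))
      refine ⟨j, ?_⟩
      rw [e]
      have b1 := (le_abs_self _).trans (hM (i, j) _ (th_mem 4 (3 / 2) t))
      have b2 := (le_abs_self _).trans (hM (i', j) _ (th_mem 4 (3 / 2) t))
      calc _ ≤ (1 + 2 * (ν : ℝ)) * (M + M) :=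
            mul_le_mul_of_nonneg_left (add_le_add b1 b2) (by positivity)
        _ ≤ S * ε := hS2
        _ ≤ _ := mul_le_mul_of_nonneg_left hj (by positivity))
  refine ⟨U, Φ, h1, h2, h3, h4, h5, h6, fun i =>
    ⟨{x | ∀ j, |x j - a i j| < (1 + ν) * h i j}, ?_, fun x hx j => ?_, fun x hx => ?_⟩⟩
  · rw [Set.ofPred_forall]
    exact isOpen_iInter_of_finite fun j => isOpen_lt (by fun_prop) continuous_const
  · have := hx j
    have a1 := mul_pos hν0 (hh' i j)
    linarith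
  · have e0 : th 4 (3 / 2) 0 = 0 := ht0 0 (by norm_num)
    have e1 : th 4 (3 / 2) 1 = 1 := ht1 1 (by norm_num)
    have := h7 i x
    simp only [e0, e1, hs0 0 (by norm_num), hs0' 1 (by norm_num), hP0, hP1, hG0, hG1,
      one_mul] at this
    rw [this hx]
    push_cast
    rfl

end Crest.Agent.S0170
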