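import Crest.Statements.S0181
import Crest.Agent.H1Cz.Kernel
import Crest.Agent.H1Cz.Curve
import Crest.Agent.H1Cz.Poly
import Crest.Agent.H1Cz.Norm
import Crest.Agent.Lead.CzRMT

set_option autoImplicit false
open scoped ComplexOrder
open Crest.AnalysisR.NumRange
open Crest Crest.AnalysisR Crest.AnalysisR.NumRange

namespace Crest.Agent.S0181

open Crest.Agent.H1Cz Crest.Agent.Lead.Cz Matrix Metric Set Filter Topology
open scoped Kronecker

lemma spectrum_subset_numRange {n : ℕ} (A : Matrix (Fin n) (Fin n) ℂ) :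
    spectrum ℂ A ⊆ numRange A := by
  intro μ hμ
  rw [spectrum.mem_iff, Matrix.isUnit_iff_isUnit_det, isUnit_iff_ne_zero, not_not,
    ← Matrix.exists_mulVec_eq_zero_iff] at hμ
  obtain ⟨x, hx0, hx⟩ := hμ
  rw [Algebra.algebraMap_eq_smul_one, sub_mulVec, smul_mulVec, one_mulVec, sub_eq_zero] at hx
  set y : EuclideanSpace ℂ (Fin n) := WithLp.toLp 2 x with hy
  have hy0 : y ≠ 0 := fun h => hx0 (by simpa [hy] using congrArg WithLp.ofLp h)
  have hAy : Matrix.toEuclideanLin A y = μ • y := by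
    rw [hy]
    change WithLp.toLp 2 (A *ᵥ x) = _
    rw [← hx]; rfl
  have hn : ‖((‖y‖⁻¹ : ℝ) : ℂ) • y‖ = 1 := by
    rw [norm_smul, Complex.norm_real, norm_inv, norm_norm,
      inv_mul_cancel₀ (norm_ne_zero_iff.2 hy0)]
  refine ⟨((‖y‖⁻¹ : ℝ) : ℂ) • y, hn, ?_⟩
  rw [map_smul, hAy, smul_comm, inner_smul_right, inner_self_eq_norm_sq_to_K, hn]
  simp

lemma aeval_conj {n : ℕ} (A S : Matrix (Fin n) (Fin n) ℂ) (hS : IsUnit S.det) (q : Polynomial ℂ) :
    Polynomial.aeval (S * A * S⁻¹) q = S * Polynomial.aeval A q * S⁻¹ := by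
  induction q using Polynomial.induction_on' with
  | add p q hp hq => rw [map_add, map_add, hp, hq, mul_add, add_mul]
  | monomial k c =>
    simp only [Polynomial.aeval_monomial, Algebra.algebraMap_eq_smul_one, smul_mul_assoc, one_mul,
      mul_smul_comm]
    congr 1
    induction k with
    | zero => simp [Matrix.mul_nonsing_inv _ hS]
    | succ k ih =>
      rw [pow_succ, ih, pow_succ]
      simp only [mul_assoc]
      rw [← mul_assoc S⁻¹ S, Matrix.nonsing_inv_mul _ hS, one_mul]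

lemma spectrum_conj {n : ℕ} (A S : Matrix (Fin n) (Fin n) ℂ) (hS : IsUnit S.det) :
    spectrum ℂ (S * A * S⁻¹) = spectrum ℂ A := by
  obtain ⟨u, rfl⟩ := (Matrix.isUnit_iff_isUnit_det S).2 hS
  rw [← Matrix.coe_units_inv]
  exact spectrum.units_conjugate

/-- Setting of the optimal-metric statement; also G is holomorphic and injective on {t : r < ‖t‖} for some r < 1 with G({t : 1 < ‖t‖}) the complement of the closure of Ω, (H, κ²) is an optimal metric pair for f(A), and S ≽ 0 with S² = H. Then one continuous 2π-periodic positive semidefinite density Λ of mean I gives, for all m ≥ 1 and m × m matrix-valued v holomorphic near the closure of Ω, v[SAS⁻¹] = (1/2π) ∫ Λ(θ) ⊗ v(G(e^{iθ})) dθ entrywise, and ‖v[A]‖ ≤ κ sup ‖v‖ over the closure of Ω. -/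
theorem result
    (n : ℕ) (hn : 1 ≤ n) (A : Matrix (Fin n) (Fin n) ℂ)
    (Ω U : Set ℂ) (hΩ₁ : IsOpen Ω) (hΩ₂ : Bornology.IsBounded Ω) (hΩ₃ : Convex ℝ Ω)
    (hU : IsOpen U) (hΩU : closure Ω ⊆ U)
    (f : ℂ → ℂ) (hf₁ : DifferentiableOn ℂ f U) (hf₂ : Set.InjOn f U)
    (hf₃ : f '' Ω = Metric.ball 0 1)
    (G : ℂ → ℂ) (r : ℝ) (hr₁ : 0 < r) (hr₂ : r < 1)
    (hG₁ : DifferentiableOn ℂ G {t : ℂ | r < ‖t‖}) (hG₂ : Set.InjOn G {t : ℂ | r < ‖t‖})
    (hG₃ : G '' {t : ℂ | 1 < ‖t‖} = (closure Ω)ᶜ)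
    (hA : numRange A ⊆ Ω) (p : Polynomial ℂ) (hp : AgreesOnSpectrum A f p)
    (H : Matrix (Fin n) (Fin n) ℂ) (κsq : ℝ) (hH : IsOptimalMetric (Polynomial.aeval A p) H κsq)
    (S : Matrix (Fin n) (Fin n) ℂ) (hS₁ : S.PosSemidef) (hS₂ : S * S = H) :
    ∃ Λ : ℝ → Matrix (Fin n) (Fin n) ℂ, Continuous Λ ∧ Function.Periodic Λ (2 * Real.pi) ∧
      (∀ θ, (Λ θ).PosSemidef) ∧
      (∀ a b, (2 * Real.pi : ℂ)⁻¹ * (∫ θ in (0 : ℝ)..2 * Real.pi, Λ θ a b)
        = (1 : Matrix (Fin n) (Fin n) ℂ) a b) ∧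
      ∀ (m : ℕ), 1 ≤ m → ∀ (V : Set ℂ), IsOpen V → closure Ω ⊆ V →
        ∀ v : ℂ → Matrix (Fin m) (Fin m) ℂ, (∀ c d, DifferentiableOn ℂ (fun z => v z c d) V) →
        ∀ q : Fin m → Fin m → Polynomial ℂ,
          (∀ c d, AgreesOnSpectrum A (fun z => v z c d) (q c d)) →
          (∀ a b c d, Polynomial.aeval (S * A * S⁻¹) (q c d) a b =
              (2 * Real.pi : ℂ)⁻¹ * (∫ θ in (0 : ℝ)..2 * Real.pi,
                Λ θ a b * v (G (Complex.exp ((θ : ℂ) * Complex.I))) c d)) ∧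
          ∀ M : ℝ, (∀ z ∈ closure Ω, ‖Matrix.toEuclideanCLM (n := Fin m) (𝕜 := ℂ) (v z)‖ ≤ M) →
            ‖Matrix.toEuclideanCLM (n := Fin n × Fin m) (𝕜 := ℂ)
                (Matrix.of fun (i : Fin n × Fin m) (j : Fin n × Fin m) =>
                  Polynomial.aeval A (q i.2 j.2) i.1 j.1)‖ ≤ Real.sqrt κsq * M := by
  classical
  have hA' : spectrum ℂ A ⊆ Ω := (spectrum_subset_numRange A).trans hA
  have hΩU' : Ω ⊆ U := subset_closure.trans hΩU
  obtain ⟨⟨hH1, hH2, hH3⟩, -⟩ := hH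
  set T := Polynomial.aeval A p with hT
  have hHpd : H.PosDef := by
    have := Matrix.PosDef.one.add_posSemidef hH1
    simpa using this
  have hSu : IsUnit S.det := by
    have h1 : IsUnit (S * S).det := by
      rw [hS₂]; exact (Matrix.isUnit_iff_isUnit_det _).1 hHpd.isUnit
    rw [det_mul] at h1
    exact isUnit_of_mul_isUnit_left h1
  set C := S * T * S⁻¹ with hC
  have hSH : Sᴴ = S := hS₁.isHermitian.eq
  have hSiH : (S⁻¹)ᴴ = S⁻¹ := by rw [conjTranspose_nonsing_inv, hSH]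
  have hc : (1 - Cᴴ * C).PosSemidef := by
    have h1 := hH3.conjTranspose_mul_mul_same S⁻¹
    have h2 : (S⁻¹)ᴴ * (H - Tᴴ * H * T) * S⁻¹ = 1 - Cᴴ * C := by
      rw [hC, conjTranspose_mul, conjTranspose_mul, hSiH, hSH, ← hS₂, mul_sub, sub_mul]
      congr 1
      · rw [← mul_assoc, Matrix.nonsing_inv_mul _ hSu, one_mul, Matrix.mul_nonsing_inv _ hSu]
      · simp only [mul_assoc]
    rwa [h2] at h1
  have hp0 : ∀ μ ∈ spectrum ℂ A, p.eval μ = f μ := fun μ hμ => by simpa using hp μ hμ 0 hn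
  haveI : Nonempty (Fin n) := ⟨⟨0, hn⟩⟩
  have hspecC : spectrum ℂ C = f '' spectrum ℂ A := by
    rw [hC, spectrum_conj _ _ hSu, hT, spectrum.map_polynomial_aeval_of_nonempty A p
      (spectrum.nonempty_of_isAlgClosed_of_finiteDimensional ℂ A)]
    exact image_congr hp0
  have hspecC' : ∀ μ ∈ spectrum ℂ C, ‖μ‖ < 1 := by
    intro μ hμ
    rw [hspecC] at hμ
    have := image_mono (f := f) hA' hμ
    rw [hf₃] at this
    simpa using this
  have hgood : Good C := good_of_spectrum hspecC'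
  -- the curve
  have hE : IsOpen {t : ℂ | r < ‖t‖} := isOpen_lt continuous_const continuous_norm
  set γ : ℝ → ℂ := fun θ => Complex.exp ((θ : ℂ) * Complex.I) with hγ
  have hγn : ∀ θ, ‖γ θ‖ = 1 := fun θ => Complex.norm_exp_ofReal_mul_I θ
  have hγE : ∀ θ, γ θ ∈ {t : ℂ | r < ‖t‖} := fun θ => by
    show r < ‖γ θ‖
    rw [hγn]; exact hr₂
  have hγc : Continuous γ := by simp only [hγ]; fun_prop
  have hγp : Function.Periodic γ (2 * Real.pi) := fun θ => by
    simp only [hγ]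
    push_cast
    rw [add_mul, Complex.exp_add, Complex.exp_two_pi_mul_I, mul_one]
  have hγd : ∀ θ, HasDerivAt γ (γ θ * Complex.I) θ := fun θ => by
    have := ((hasDerivAt_id θ).ofReal_comp.mul_const Complex.I).cexp
    simpa [hγ] using this
  have hGcl : ∀ θ, G (γ θ) ∈ closure Ω := by
    intro θ
    by_contra hcon
    rw [← mem_compl_iff, ← hG₃] at hcon
    obtain ⟨s, hs, hse⟩ := hcon
    have h1 : s = γ θ := hG₂ (show r < ‖s‖ from hr₂.trans hs) (hγE θ) hse
    rw [h1] at hs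
    exact absurd (hγn θ) (ne_of_gt hs)
  have hGn : ∀ θ, G (γ θ) ∉ Ω := by
    intro θ hcon
    have h1 : ContinuousAt G (γ θ) := (hG₁.differentiableAt (hE.mem_nhds (hγE θ))).continuousAt
    have h2 : ContinuousAt (fun ρ : ℝ => G ((ρ : ℂ) * γ θ)) 1 := by
      refine ContinuousAt.comp (f := fun ρ : ℝ => (ρ : ℂ) * γ θ) (by simpa using h1) ?_
      fun_prop
    have h3 : ∀ᶠ ρ : ℝ in 𝓝 1, G ((ρ : ℂ) * γ θ) ∈ Ω :=
      h2.eventually (hΩ₁.mem_nhds (by simpa using hcon))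
    obtain ⟨ρ, hρ, hρ1⟩ := ((h3.filter_mono (nhdsWithin_le_nhds (s := Ioi 1))).and
      self_mem_nhdsWithin).exists
    have hρ1' : 1 < ρ := hρ1
    have h4 : G ((ρ : ℂ) * γ θ) ∈ (closure Ω)ᶜ := by
      rw [← hG₃]
      refine mem_image_of_mem _ ?_
      show 1 < ‖(ρ : ℂ) * γ θ‖
      rw [norm_mul, hγn, mul_one, Complex.norm_real, Real.norm_of_nonneg (by linarith)]
      exact hρ1'
    exact h4 (subset_closure hρ)
  have hGU : ∀ θ, G (γ θ) ∈ U := fun θ => hΩU (hGcl θ)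
  have hcpt : IsCompact (closure Ω) := hΩ₂.isCompact_closure
  have hfcl : f '' closure Ω = closedBall 0 1 := by
    apply Subset.antisymm
    · have := (hf₁.continuousOn.mono hΩU).image_closure
      rwa [hf₃, closure_ball _ one_ne_zero] at this
    · rw [← closure_ball _ one_ne_zero, ← hf₃]
      exact closure_minimal (image_mono subset_closure)
        (hcpt.image_of_continuousOn (hf₁.continuousOn.mono hΩU)).isClosed
  set w : ℝ → ℂ := fun θ => f (G (γ θ)) with hw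
  have hwn : ∀ θ, ‖w θ‖ = 1 := by
    intro θ
    have h1 : w θ ∈ closedBall (0 : ℂ) 1 := hfcl ▸ mem_image_of_mem f (hGcl θ)
    have h2 : w θ ∉ ball (0 : ℂ) 1 := by
      rw [← hf₃]
      rintro ⟨z, hz, hze⟩
      exact hGn θ (hf₂ (hΩU' hz) (hGU θ) hze ▸ hz)
    simp only [mem_closedBall, mem_ball, dist_zero_right, not_lt] at h1 h2
    exact le_antisymm h1 h2
  have hGγc : Continuous fun θ => G (γ θ) := hG₁.continuousOn.comp_continuous hγc hγE
  have hwc : Continuous w := hf₁.continuousOn.comp_continuous hGγc hGU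
  obtain ⟨ρ, hρc, hρp, hρ0, hρ⟩ := curve_density (w := w)
    (w' := fun θ => deriv f (G (γ θ)) * (deriv G (γ θ) * (γ θ * Complex.I)))
    (fun θ => by
      have h1 := (hG₁.differentiableAt (hE.mem_nhds (hγE θ))).hasDerivAt
      have h2 := (hf₁.differentiableAt (hU.mem_nhds (hGU θ))).hasDerivAt
      have h3 := h1.scomp θ (hγd θ)
      have h4 := HasDerivAt.scomp (g₁ := f) (h := G ∘ γ) θ h2 h3
      refine h4.congr_deriv ?_
      simp only [smul_eq_mul]; ring)
    (((hf₁.deriv hU).continuousOn.comp_continuous hGγc hGU).mul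
      (((hG₁.deriv hE).continuousOn.comp_continuous hγc hγE).mul (hγc.mul continuous_const)))
    (fun θ => mul_ne_zero (deriv_ne_zero_of_injOn hU hf₁ hf₂ (hGU θ))
      (mul_ne_zero (deriv_ne_zero_of_injOn hE hG₁ hG₂ (hγE θ))
        (mul_ne_zero (Complex.exp_ne_zero _) Complex.I_ne_zero)))
    hwn (fun θ => by simp only [hw, hγp θ]) (fun θ => by simp only [hγp θ])
  have hws : ∀ θ, w θ ∈ sphere (0 : ℂ) 1 := fun θ => by simpa using hwn θ
  set Λ : ℝ → Matrix (Fin n) (Fin n) ℂ := fun θ => (ρ θ : ℂ) • Pk C (w θ) with hΛ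
  have hΛc : Continuous Λ := continuous_matrix fun a b =>
    (Complex.continuous_ofReal.comp hρc).mul ((contOn_Pk hgood a b).comp_continuous hwc hws)
  have hΛpsd : ∀ θ, (Λ θ).PosSemidef := fun θ =>
    (Pk_psd hgood hc (hwn θ)).smul (by exact_mod_cast hρ0 θ)
  have hΛint : ∀ W : ℂ → ℂ, Hol W → ∀ a b, (2 * Real.pi : ℂ)⁻¹ *
      (∫ θ in (0 : ℝ)..2 * Real.pi, Λ θ a b * W (w θ)) =
        Real.circleAverage (fun z => Pk C z a b * W z) 0 1 := by
    intro W hW a b
    rw [← hρ _ ((contOn_Pk hgood a b).fun_mul hW.contOn)]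
    simp only [hΛ, Matrix.smul_apply, smul_eq_mul, mul_assoc]
  have hΛone : ∀ a b, (2 * Real.pi : ℂ)⁻¹ * (∫ θ in (0 : ℝ)..2 * Real.pi, Λ θ a b)
      = (1 : Matrix (Fin n) (Fin n) ℂ) a b := by
    intro a b
    have h1 := hΛint (fun _ => 1) (fun _ _ => differentiableAt_const _) a b
    rw [avg_Pk hgood 1 0 (map_zero _) (e := fun _ => 0) (fun _ _ => differentiableAt_const _)
      (fun _ _ => differentiableAt_const _) (fun z _ => by simp), map_one] at h1
    simpa only [mul_one] using h1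
  refine ⟨Λ, hΛc, fun θ => by simp only [hΛ, hw, hρp θ, hγp θ], hΛpsd, hΛone, ?_⟩
  intro m hm V hV hΩV v hv q hq
  have hUV : IsOpen (U ∩ V) := hU.inter hV
  obtain ⟨hO, g, -, hgd, hgf⟩ := exists_inverse hUV (hf₁.mono inter_subset_left)
    (hf₂.mono inter_subset_left)
  set O := f '' (U ∩ V) with hOdef
  have hDO : closedBall (0 : ℂ) 1 ⊆ O := by
    rw [← hfcl]; exact image_mono (subset_inter hΩU hΩV)
  have hgV : MapsTo g O V := by
    rintro _ ⟨z, hz, rfl⟩
    rw [hgf z hz]; exact hz.2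
  have hhol : ∀ W : ℂ → ℂ, DifferentiableOn ℂ W O → Hol W := fun W hW z hz =>
    hW.differentiableAt (hO.mem_nhds (hDO (by simpa using hz)))
  have hform : ∀ a b c d, Polynomial.aeval (S * A * S⁻¹) (q c d) a b =
      (2 * Real.pi : ℂ)⁻¹ * (∫ θ in (0 : ℝ)..2 * Real.pi, Λ θ a b * v (G (γ θ)) c d) := by
    intro a b c d
    set W : ℂ → ℂ := fun z => v (g z) c d with hW
    have hWd : DifferentiableOn ℂ W O := (hv c d).comp hgd hgV
    obtain ⟨rr, e, he, hre⟩ := exists_division hO (n • C.charpoly.roots) (by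
      intro μ hμ
      have h1 := Matrix.mem_spectrum_iff_isRoot_charpoly.2
        (Polynomial.isRoot_of_mem_roots (Multiset.mem_of_mem_nsmul hμ))
      exact hDO (by simpa using (hspecC' μ h1).le)) hWd
    rw [Multiset.map_nsmul, Multiset.prod_nsmul,
      ← (IsAlgClosed.splits C.charpoly).eq_prod_roots_of_monic C.charpoly_monic] at hre
    have hχ : Polynomial.aeval C (C.charpoly ^ n) = 0 := by
      rw [map_pow, Matrix.aeval_self_charpoly, zero_pow (by omega)]
    have h1 := hΛint W (hhol W hWd) a b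
    rw [avg_Pk hgood rr _ hχ (hhol W hWd) (hhol e he) (fun z _ => hre z)] at h1
    have h2 : ∀ θ, W (w θ) = v (G (γ θ)) c d := fun θ => by
      simp only [hW, hw]
      rw [hgf _ ⟨hGU θ, hΩV (hGcl θ)⟩]
    simp only [h2] at h1
    have hAUV : ∀ μ ∈ spectrum ℂ A, μ ∈ U ∩ V := fun μ hμ =>
      ⟨hΩU' (hA' hμ), hΩV (subset_closure (hA' hμ))⟩
    have h3 : Polynomial.aeval A (q c d) = Polynomial.aeval T rr := by
      refine aeval_eq_comp hn A p (q c d) rr C.charpoly f (fun z => v z c d) e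
        (fun μ hμ => hf₁.analyticAt (hU.mem_nhds (hAUV μ hμ).1))
        (fun μ hμ => (hv c d).analyticAt (hV.mem_nhds (hAUV μ hμ).2))
        (fun μ hμ => he.continuousOn.continuousAt (hO.mem_nhds (mem_image_of_mem f (hAUV μ hμ))))
        (fun μ hμ => Matrix.mem_spectrum_iff_isRoot_charpoly.1
          (hspecC ▸ mem_image_of_mem f hμ)) hp (hq c d) (fun μ hμ => ?_)
      filter_upwards [hUV.mem_nhds (hAUV μ hμ)] with z hz
      rw [← hre (f z)]
      simp only [hW]
      rw [hgf z hz]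
    rw [h1, aeval_conj _ _ hSu, h3, hC, aeval_conj _ _ hSu]
  refine ⟨hform, fun M hM => ?_⟩
  have hM0 : 0 ≤ M := (norm_nonneg _).trans (hM _ (hGcl 0))
  have hvc : Continuous fun θ => v (G (γ θ)) := continuous_matrix fun c d =>
    (hv c d).continuousOn.comp_continuous hGγc fun θ => hΩV (hGcl θ)
  refine norm_conj_kron (S := S) hS₁.isHermitian (hS₂ ▸ hH1) (hS₂ ▸ hH2)
    (B' := Matrix.of fun (i : Fin n × Fin m) (j : Fin n × Fin m) =>
      Polynomial.aeval (S * A * S⁻¹) (q i.2 j.2) i.1 j.1) ?_ hM0 ?_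
  · ext i j
    have h1 : S * Polynomial.aeval A (q i.2 j.2) =
        Polynomial.aeval (S * A * S⁻¹) (q i.2 j.2) * S := by
      rw [aeval_conj _ _ hSu, mul_assoc, Matrix.nonsing_inv_mul _ hSu, mul_one]
    have h2 := congrFun (congrFun h1 i.1) j.1
    simp only [Matrix.mul_apply] at h2
    simp only [Matrix.mul_apply, Fintype.sum_prod_type, kroneckerMap_apply, Matrix.of_apply,
      Matrix.one_apply, mul_ite, ite_mul, mul_one, mul_zero, zero_mul, Finset.sum_ite_eq,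
      Finset.sum_ite_eq', Finset.mem_univ, if_true]
    exact h2
  · exact norm_avg_kron hΛc hvc hΛpsd hΛone hM0 (fun θ => hM _ (hGcl θ))
      (fun i j => hform i.1 j.1 i.2 j.2)

end Crest.Agent.S0181
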