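import Crest.Statements.S0275
import Crest.Agent.H6.SC11
import Crest.Agent.H6.MU

set_option autoImplicit false
open Crest Crest.AlgebraR

namespace Crest.Agent.S0275

open Crest.Agent.H6 MonoidAlgebra

/-- matrix units in the group algebra of a finite group (times any group). -/
theorem exists_units {K G I : Type} [Field K] [Group G] [Fintype I] [DecidableEq I]
    (h2 : (2 : K) ≠ 0) (i₀ : I) :
    ∃ (E : Type) (_ : Group E) (_ : Finite E) (e : I → I → MonoidAlgebra K (G × E)),
      (∀ i j k l, e i j * e k l = if j = k then e i l else 0) ∧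
      (∀ g i j, Commute (of K (G × E) (g, 1)) (e i j)) ∧
      ∀ z : G, z ≠ 1 → (1 - of K (G × E) (z, 1)) * e i₀ i₀ ≠ 0 := by
  classical
  let E := Equiv.Perm (I × ℤˣ)
  let s : (I → ℤˣ) → E := fun a => Equiv.prodCongrRight fun i => Equiv.mulLeft (a i)
  let t : Equiv.Perm I →* E :=
    { toFun := fun σ => Equiv.prodCongr σ (Equiv.refl _), map_one' := rfl, map_mul' := fun _ _ => rfl }
  have hs : ∀ a b, s a * s b = s (a * b) := fun a b => by
    ext1 ⟨i, u⟩; simp [s, E]
  have hts : ∀ σ a, t σ * s (a ∘ σ) = s a * t σ := fun σ a => by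
    ext1 ⟨i, u⟩; simp [s, t, E]
  have hs1 : ∀ a, s a = 1 ↔ a = 1 := fun a => by
    constructor
    · intro h
      funext i
      simpa [s, E] using congrArg (fun f : E => (f (i, 1)).2) h
    · rintro rfl
      ext1 ⟨i, u⟩; simp [s, E]
  let U : E →* MonoidAlgebra K (G × E) := (of K (G × E)).comp (MonoidHom.inr G E)
  let χ : I → (I → ℤˣ) → K := fun i a => ((a i : ℤ) : K)
  have hχ : ∀ i a b, χ i (a * b) = χ i a * χ i b := fun i a b => by simp [χ]
  have hχ2 : ∀ i a, χ i a * χ i a = 1 := fun i a => by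
    simp only [χ]; rw [← Int.cast_mul, ← Units.val_mul, Int.units_mul_self]; simp
  let c : K := (Fintype.card (I → ℤˣ) : K)⁻¹
  have hc0 : (Fintype.card (I → ℤˣ) : K) ≠ 0 := by simp [h2]
  let ε : I → MonoidAlgebra K (G × E) := fun i => c • ∑ a, χ i a • U (s a)
  have h1 : ∀ i a, U (s a) * ε i = χ i a • ε i := by
    intro i a
    simp only [ε]
    rw [mul_smul_comm, Finset.mul_sum, smul_comm (χ i a), Finset.smul_sum (r := χ i a)]
    congr 1
    refine Fintype.sum_equiv (Equiv.mulLeft a) _ _ fun b => ?_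
    rw [mul_smul_comm, ← map_mul, hs, smul_smul]
    simp only [Equiv.coe_mulLeft, hχ, ← mul_assoc, hχ2, one_mul]
  have h3 : ∀ i j, ε i * ε j = if i = j then ε i else 0 := by
    intro i j
    have e : ε i * ε j = (c * ∑ a, χ i a * χ j a) • ε j := by
      rw [show ε i * ε j = (c • ∑ a, χ i a • U (s a)) * ε j from rfl, smul_mul_assoc,
        Finset.sum_mul]
      simp only [smul_mul_assoc, h1, smul_smul, ← Finset.sum_smul]
    rw [e]
    split_ifs with h
    · subst h; simp [hχ2, c, h2]
    · rw [Finset.sum_involution (fun a _ => a * Pi.mulSingle i (-1)), mul_zero, zero_smul]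
      · intro a _
        simp [χ, Pi.mulSingle_eq_of_ne (Ne.symm h)]
      · intro a _ _ e
        simpa using congrFun (mul_eq_left.1 e) i
      · simp
      · intro a _
        rw [mul_assoc, ← Pi.mulSingle_mul]; simp
  have h4 : ∀ σ i, U (t σ) * ε i = ε (σ i) * U (t σ) := by
    intro σ i
    simp only [ε]
    rw [mul_smul_comm, smul_mul_assoc, Finset.mul_sum, Finset.sum_mul]
    simp only [mul_smul_comm, smul_mul_assoc, ← map_mul, ← hts]
    congr 1
    exact (Fintype.sum_equiv (Equiv.arrowCongr σ.symm (Equiv.refl _)) _ _ fun b => rfl).symm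
  have hU : ∀ g y, Commute (of K (G × E) (g, 1)) (U y) := fun g y =>
    Commute.map (Prod.ext (by simp) (by simp)) _
  refine ⟨E, inferInstance, inferInstance,
    fun i j => U (t (Equiv.swap i₀ i)) * ε i₀ * U (t (Equiv.swap i₀ j)), ?_, ?_, ?_⟩
  · intro i j k l
    have e : U (t (Equiv.swap i₀ j)) * (U (t (Equiv.swap i₀ k)) * ε i₀) =
        ε (Equiv.swap i₀ j k) * U (t (Equiv.swap i₀ j * Equiv.swap i₀ k)) := by
      rw [← mul_assoc, ← map_mul, ← map_mul, h4]; simp
    rw [mul_assoc, ← mul_assoc (U _), e, mul_assoc (U _), ← mul_assoc (ε _), ← mul_assoc (ε _), h3]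
    by_cases h : j = k
    · subst h; simp [mul_assoc]
    · rw [if_neg h, if_neg]
      · simp
      · intro h'
        rw [eq_comm, Equiv.swap_apply_eq_iff] at h'
        exact h (by simpa using h'.symm)
  · intro g i j
    exact ((hU _ _).mul_right ((Commute.sum_right _ _ _ fun a _ => (hU _ _).smul_right _).smul_right
      _)).mul_right (hU _ _)
  · intro z hz h
    have := congrArg (fun x => x.coeff 1) h
    simp [ε, U, sub_mul, coeff_sum, Finsupp.single_apply, hz, hs1, χ, c, h2,
      Equiv.swap_self, ← Equiv.Perm.one_def] at this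

theorem main (p : ℕ) (hp : p.Prime) (ho : Odd p) :
    ∃ (K : Type) (_ : Field K) (G : Type) (_ : Group G), Nat.card K = p ^ 4 ∧
      Group.FG G ∧ (∃ g : G, g ≠ 1 ∧ IsOfFinOrder g) ∧
      ∃ a b : MonoidAlgebra K G, a * b = 1 ∧ b * a ≠ 1 := by
  classical
  have := Fact.mk hp
  obtain ⟨G, _, z, I, κ, _, _, _, A, B, C, hfg, hz1, hz2, hz3, hcard, hAB⟩ := SC.exists_rect p
  let K := GaloisField p 4
  have h2 : (2 : K) ≠ 0 := by
    intro h
    have := (CharP.cast_eq_zero_iff K p 2).1 (by exact_mod_cast h)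
    rw [(Nat.prime_dvd_prime_iff_eq hp Nat.prime_two).1 this] at ho
    exact absurd ho (by decide)
  obtain ⟨σ⟩ : Nonempty (κ ↪ I) := Function.Embedding.nonempty_of_card_le (by omega)
  obtain ⟨i₀, hi₀⟩ : ∃ i₀, ∀ t, σ t ≠ i₀ := by
    by_contra h
    push Not at h
    have := Fintype.card_le_of_surjective σ h
    omega
  obtain ⟨E, _, _, e, he, hc, hne⟩ := exists_units (G := G) h2 i₀
  let φ : MonoidAlgebra ℤ G →+* MonoidAlgebra K (G × E) :=
    (lift ℤ _ G ((of K (G × E)).comp (MonoidHom.inl G E))).toRingHom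
  have hφ : ∀ g, φ (of ℤ G g) = of K (G × E) (g, 1) := fun g => lift_of _ _
  have hc' : ∀ r i j, Commute (φ r) (e i j) := by
    intro r i j
    induction r using MonoidAlgebra.induction_on with
    | of g => rw [hφ]; exact hc _ _ _
    | add a b ha hb => rw [map_add]; exact ha.add_left hb
    | smul n a ha => rw [map_zsmul]; exact ha.smul_left _
  let Φ := MU.muHom e he φ hc'
  let J : Matrix κ I (MonoidAlgebra ℤ G) := Matrix.of fun t i => if σ t = i then 1 else 0
  have hJ : J * J.transpose = 1 := by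
    ext1 t t'
    simp [J, Matrix.mul_apply, Matrix.one_apply, eq_comm]
  let ε : MonoidAlgebra K (G × E) := (2 : K)⁻¹ • (1 - of K (G × E) (z, 1))
  have hcen : ∀ y, Commute ε y := by
    intro y
    refine ((Commute.one_left _).sub_left ?_).smul_left _
    induction y using MonoidAlgebra.induction_on with
    | of g => exact Commute.map (show Commute (z, (1 : E)) g from Prod.ext (hz3 _) (by simp)) _
    | add a b ha hb => exact ha.add_right hb
    | smul n a ha => exact ha.smul_right _
  have hε' : (1 - of K (G × E) (z, 1)) = (2 : K) • ε := by rw [smul_inv_smul₀ h2]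
  have hε : ε * ε = ε := by
    have : (1 - of K (G × E) (z, 1)) * (1 - of K (G × E) (z, 1)) =
        (2 : K) • (1 - of K (G × E) (z, 1)) := by
      simp only [mul_sub, sub_mul, mul_one, one_mul, ← map_mul, Prod.mk_mul_mk, hz2, two_smul]
      rw [show of K (G × E) (1, 1) = 1 from map_one _]; abel
    simp only [ε]
    rw [smul_mul_smul_comm, this, smul_smul, mul_assoc, inv_mul_cancel₀ h2, mul_one]
  have hm : ∀ x y, ε * x * (ε * y) = ε * (x * y) := fun x y => by
    rw [mul_assoc, ← mul_assoc x, ← (hcen x).eq, mul_assoc, ← mul_assoc, hε]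
  refine ⟨K, inferInstance, G × E, inferInstance, GaloisField.card p 4 (by norm_num), inferInstance,
    ⟨(z, 1), by simp [hz1], isOfFinOrder_iff_pow_eq_one.2 ⟨2, two_pos, by simp [sq, hz2]⟩⟩, ?_⟩
  refine MU.exists_of_corner (x := (2 : K)⁻¹ • (ε * Φ (A * J))) (y := ε * Φ (J.transpose * B))
    (f := ε * Φ 1) (t := ε * Φ (Matrix.single i₀ i₀ 1)) ?_ ?_ ?_ ?_ ?_ ?_ ?_
  · rw [hm, ← map_mul, mul_one]
  · rw [smul_mul_assoc, hm, ← map_mul, mul_one]
  · rw [hm, ← map_mul, one_mul]
  · rw [smul_mul_assoc, hm, ← map_mul, Matrix.mul_assoc, ← Matrix.mul_assoc J, hJ, Matrix.one_mul,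
      hAB, map_add, map_zsmul, MU.muHom_smul, map_sub, map_one, hφ, hε', ← Int.cast_smul_eq_zsmul K]
    simp only [Int.cast_natCast, CharP.cast_eq_zero, zero_smul, add_zero, smul_mul_assoc,
      mul_smul_comm, ← mul_assoc, hε, inv_smul_smul₀ h2]
    rfl
  · rw [hm, ← map_mul, mul_one]
  · have : Matrix.single i₀ i₀ (1 : MonoidAlgebra ℤ G) * J.transpose = 0 := by
      ext1 i t
      simp [J, Matrix.mul_apply, Matrix.single, (hi₀ t).symm, ite_and]
    rw [hm, ← map_mul, ← Matrix.mul_assoc, this, Matrix.zero_mul, map_zero, mul_zero]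
  · intro h
    apply hne z hz1
    rw [MU.muHom_single] at h
    rw [hε', smul_mul_assoc, h, smul_zero]

theorem prime_odd (m : ℕ) (hm : 2 ≤ m) :
    (m.factorial ^ 2 + 1).minFac.Prime ∧ Odd (m.factorial ^ 2 + 1).minFac := by
  have h1 : 0 < m.factorial ^ 2 := pow_pos m.factorial_pos _
  refine ⟨Nat.minFac_prime (by omega), Odd.of_dvd_nat ?_ (Nat.minFac_dvd _)⟩
  exact (Even.pow_of_ne_zero (even_iff_two_dvd.2 (Nat.dvd_factorial two_pos hm)) two_ne_zero).add_one

/-- Let m be the central binomial coefficient (1200 choose 600) and p the least divisor greater than one of (m!)^2 + 1. Then p is an odd prime, and there are a field with p^4 elements, a finitely generated group containing a non-identity element of finite order, and two elements a and b of the group algebra of that group over that field with a * b = 1 but b * a ≠ 1. -/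
theorem result :
    Nat.Prime (Nat.minFac ((Nat.choose 1200 600).factorial ^ 2 + 1)) ∧
    Odd (Nat.minFac ((Nat.choose 1200 600).factorial ^ 2 + 1)) ∧
    ∃ (K : Type) (_ : Field K) (G : Type) (_ : Group G),
      Nat.card K = Nat.minFac ((Nat.choose 1200 600).factorial ^ 2 + 1) ^ 4 ∧
      Group.FG G ∧ (∃ g : G, g ≠ 1 ∧ IsOfFinOrder g) ∧
      ∃ a b : MonoidAlgebra K G, a * b = 1 ∧ b * a ≠ 1 := by
  have hm : 2 ≤ Nat.choose 1200 600 :=
    le_trans (by rw [Nat.choose_succ_self_right]; omega)
      (Nat.choose_le_choose 600 (show 600 + 1 ≤ 1200 by omega))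
  generalize Nat.choose 1200 600 = m at hm
  obtain ⟨h1, h2⟩ := prime_odd m hm
  exact ⟨h1, h2, main _ h1 h2⟩

end Crest.Agent.S0275
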