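import Crest.Statements.S0276
import Crest.Agent.H6.SC11
import Crest.Agent.H6.FK2

set_option autoImplicit false
open Crest.AlgebraR.GroupRingDet
open Crest Crest.AlgebraR

namespace Crest.Agent.S0276

open Crest.Agent.H6

/-- the relations between the blocks. -/
structure Rel {B : Type*} [Ring B] (p : ℤ) (ζ E a b c : B) : Prop where
  h1 : ζ * ζ = 1
  hE : Commute ζ E
  ha : Commute ζ a
  hb : Commute ζ b
  hc : Commute ζ c
  EE : E * E = E
  aE : a * E = a
  Ea : E * a = 0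
  Eb : E * b = b
  bE : b * E = 0
  Ec : E * c = 0
  ab : a * b = (1 - ζ) * (1 - E) + p • c

theorem Rel.map {B B' : Type*} [Ring B] [Ring B'] (f : B →+* B') {p : ℤ} {ζ E a b c : B}
    (h : Rel p ζ E a b c) : Rel p (f ζ) (f E) (f a) (f b) (f c) :=
  ⟨by rw [← map_mul, h.h1, map_one], h.hE.map f, h.ha.map f, h.hb.map f, h.hc.map f,
    by rw [← map_mul, h.EE], by rw [← map_mul, h.aE], by rw [← map_mul, h.Ea, map_zero],
    by rw [← map_mul, h.Eb], by rw [← map_mul, h.bE, map_zero], by rw [← map_mul, h.Ec, map_zero],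
    by rw [← map_mul, h.ab]; simp⟩

theorem Rel.fact (K : Type*) {B : Type*} [Field K] [CharZero K] [Ring B] [Algebra K B] {p : ℤ}
    (hp : p ≠ 0) {ζ E a b c : B} (h : Rel p ζ E a b c) :
    ∃ e f x y : B, e = (2 : K)⁻¹ • ((1 - ζ) * E) ∧ f = (2 : K)⁻¹ • ((1 - ζ) * (1 - E)) ∧
      x = -(2 : K)⁻¹ • ((1 - ζ) * a) ∧ y = ((p : K)⁻¹ * (2 : K)⁻¹) • ((1 - ζ) * b) ∧
      e * e = e ∧ f * f = f ∧ x * x = 0 ∧ y * y = 0 ∧
      1 + ζ + (1 - ζ) * (p • E + b - a - c) = (1 + ((2 : K) - 1) • (1 : B)) *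
        ((1 + ((p : K)⁻¹ - 1) • f) * ((1 + x) * (1 + ((p : K) - 1) • e) * (1 + ((2 : K) - 1) • f) *
          (1 + y))) := by
  have hp' : (p : K) ≠ 0 := Int.cast_ne_zero.2 hp
  obtain ⟨π, hπ⟩ : ∃ π : B, π = (2 : K)⁻¹ • (1 - ζ) := ⟨_, rfl⟩
  have hζ : ζ = 1 - (2 : K) • π := by rw [hπ, smul_inv_smul₀ two_ne_zero]; simp
  have hζ' : 1 - ζ = (2 : K) • π := by rw [hζ]; simp
  have hππ : π * π = π := by
    rw [hπ]
    simp only [smul_mul_smul_comm, mul_sub, sub_mul, mul_one, one_mul, h.h1]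
    match_scalars <;> norm_num
  have hm : ∀ u v, Commute ζ u → π * u * (π * v) = π * (u * v) := fun u v hu => by
    have : Commute π u := hπ ▸ ((Commute.one_left u).sub_left hu).smul_left _
    rw [mul_assoc, ← mul_assoc u, ← this.eq, mul_assoc, ← mul_assoc, hππ]
  have hF : Commute ζ (1 - E) := (Commute.one_right _).sub_right h.hE
  obtain ⟨e, he⟩ : ∃ e, e = π * E := ⟨_, rfl⟩
  obtain ⟨f, hf⟩ : ∃ f, f = π * (1 - E) := ⟨_, rfl⟩
  obtain ⟨x, hx⟩ : ∃ x, x = π * a := ⟨_, rfl⟩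
  obtain ⟨y, hy⟩ : ∃ y, y = π * b := ⟨_, rfl⟩
  obtain ⟨w, hw⟩ : ∃ w, w = π * c := ⟨_, rfl⟩
  have ee : e * e = e := by rw [he, hm _ _ h.hE, h.EE]
  have ff : f * f = f := by rw [hf, hm _ _ hF]; simp [mul_sub, sub_mul, h.EE]
  have ef : e * f = 0 := by rw [he, hf, hm _ _ h.hE]; simp [mul_sub, h.EE]
  have fe : f * e = 0 := by rw [he, hf, hm _ _ hF]; simp [sub_mul, h.EE]
  have xe : x * e = x := by rw [he, hx, hm _ _ h.ha, h.aE]
  have xf : x * f = 0 := by rw [hf, hx, hm _ _ h.ha]; simp [mul_sub, h.aE]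
  have fx : f * x = x := by rw [hf, hx, hm _ _ hF]; simp [sub_mul, h.Ea]
  have ey : e * y = y := by rw [he, hy, hm _ _ h.hE, h.Eb]
  have fy : f * y = 0 := by rw [hf, hy, hm _ _ hF]; simp [sub_mul, h.Eb]
  have fw : f * w = w := by rw [hf, hw, hm _ _ hF]; simp [sub_mul, h.Ec]
  have xy : x * y = (2 : K) • f + (p : K) • w := by
    rw [hx, hy, hm _ _ h.ha, h.ab, hζ', hf, hw, mul_add, smul_mul_assoc, mul_smul_comm,
      ← mul_assoc, hππ, mul_smul_comm, Int.cast_smul_eq_zsmul]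
  have hπ' : π = e + f := by rw [he, hf, ← mul_add]; simp
  refine ⟨e, f, -x, (p : K)⁻¹ • y, by rw [he, hπ, smul_mul_assoc], by rw [hf, hπ, smul_mul_assoc],
    by rw [hx, hπ, smul_mul_assoc, neg_smul], by rw [hy, hπ, smul_mul_assoc, smul_smul], ee, ff,
    ?_, ?_, ?_⟩
  · rw [neg_mul_neg, ← fx, ← mul_assoc, mul_assoc f, xf]; simp
  · have : y * y = 0 := by
      rw [hy, hm _ _ h.hb, ← h.Eb, ← mul_assoc (E * b), mul_assoc E, h.bE]; simp
    rw [smul_mul_smul_comm, this, smul_zero]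
  · have s1 : (1 + -x) * (1 + ((p : K) - 1) • e) = 1 + ((p : K) - 1) • e - (p : K) • x := by
      simp only [mul_add, add_mul, mul_one, one_mul, mul_smul_comm, neg_mul, xe]; module
    have s2 : (1 + ((p : K) - 1) • e - (p : K) • x) * (1 + ((2 : K) - 1) • f) =
        1 + ((p : K) - 1) • e - (p : K) • x + f := by
      simp only [mul_add, add_mul, sub_mul, mul_one, one_mul, mul_smul_comm, smul_mul_assoc, ef, xf]
      module
    have s3 : (1 + ((p : K) - 1) • e - (p : K) • x + f) * (1 + (p : K)⁻¹ • y) =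
        1 + ((p : K) - 1) • e - (p : K) • x - f + y - (p : K) • w := by
      simp only [mul_add, add_mul, sub_mul, mul_one, one_mul, mul_smul_comm, smul_mul_assoc, ey, xy,
        fy]
      match_scalars <;> field_simp <;> ring
    have s4 : (1 + ((p : K)⁻¹ - 1) • f) * (1 + ((p : K) - 1) • e - (p : K) • x - f + y - (p : K) • w) =
        1 + ((p : K) - 1) • e - f + y - x - w := by
      simp only [mul_add, add_mul, mul_sub, mul_one, one_mul, mul_smul_comm, smul_mul_assoc, fe, fx,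
        ff, fy, fw]
      match_scalars <;> field_simp <;> ring
    rw [s1, s2, s3, s4, hζ', smul_mul_assoc, mul_sub, mul_sub, mul_add, mul_smul_comm, ← he, ← hx,
      ← hy, ← hw, hζ, hπ', ← Int.cast_smul_eq_zsmul K, add_mul, one_mul, smul_mul_assoc, one_mul]
    module

theorem unit_idem {K B : Type*} [Field K] [Ring B] [Algebra K B] {y : B} (h : y * y = y) {r : K}
    (hr : r ≠ 0) : IsUnit (1 + (r - 1) • y) := by
  have hm : ∀ s t : K, (1 + (s - 1) • y) * (1 + (t - 1) • y) = 1 + (s * t - 1) • y := by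
    intro s t
    simp only [add_mul, mul_add, one_mul, mul_one, smul_mul_smul_comm, h]; module
  exact ⟨⟨_, 1 + (r⁻¹ - 1) • y, by rw [hm]; simp [hr], by rw [hm]; simp [hr]⟩, rfl⟩

theorem Rel.isUnit (K : Type*) {B : Type*} [Field K] [CharZero K] [Ring B] [Algebra K B] {p : ℤ}
    (hp : p ≠ 0) {ζ E a b c : B} (h : Rel p ζ E a b c) :
    IsUnit (1 + ζ + (1 - ζ) * (p • E + b - a - c)) := by
  obtain ⟨e, f, x, y, -, -, -, -, ee, ff, xx, yy, h⟩ := h.fact K hp
  have hp' : (p : K) ≠ 0 := Int.cast_ne_zero.2 hp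
  rw [h]
  exact (unit_idem (mul_one _) two_ne_zero).mul ((unit_idem ff (inv_ne_zero hp')).mul
    ((((IsNilpotent.isUnit_one_add ⟨2, by rw [sq, xx]⟩).mul (unit_idem ee hp')).mul
      (unit_idem ff two_ne_zero)).mul (IsNilpotent.isUnit_one_add ⟨2, by rw [sq, yy]⟩)))

theorem Rel.neg {A : Type*} [CStarAlgebra A] [PartialOrder A] [StarOrderedRing A] (T : FK.Tr A)
    {ζ E a b c : A} (h : Rel 257 ζ E a b c) (hζ : ζ ∈ T.S) (hE : E ∈ T.S) (ha : a ∈ T.S)
    (hb : b ∈ T.S) {n m : ℕ} (hnm : 3 * n < m) (t1 : T.τ 1 = n + m) (t2 : T.τ ((1 - ζ) * E) = n)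
    (t3 : T.τ ((1 - ζ) * (1 - E)) = m) (t4 : T.τ ((1 - ζ) * a) = 0) (t5 : T.τ ((1 - ζ) * b) = 0) :
    T.L (1 + ζ + (1 - ζ) * ((257 : ℤ) • E + b - a - c)) < 0 := by
  obtain ⟨e, f, x, y, he, hf, hx, hy, ee, ff, xx, yy, h⟩ := h.fact ℝ (by norm_num)
  have hS : ∀ (r : ℝ) u, u ∈ T.S → r • ((1 - ζ) * u) ∈ T.S := fun r u hu =>
    SMulMemClass.smul_mem _ (mul_mem (sub_mem (one_mem _) hζ) hu)
  have hfS : f ∈ T.S := hf ▸ hS _ _ (sub_mem (one_mem _) hE)
  rw [h]
  refine ((T.bd_idem (one_mem _) (mul_one _) two_pos).mul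
    ((T.bd_idem hfS ff (r := ((257 : ℤ) : ℝ)⁻¹) (by norm_num)).mul
    ((((T.bd_nil (hx ▸ hS _ _ ha) xx (by simp [hx, t4])).mul
      (T.bd_idem (he ▸ hS _ _ hE) ee (r := ((257 : ℤ) : ℝ)) (by norm_num))).mul
      (T.bd_idem hfS ff two_pos)).mul (T.bd_nil (hy ▸ hS _ _ hb) yy (by simp [hy, t5]))))).neg ?_
  have h2 : 0 < Real.log 2 := Real.log_pos one_lt_two
  have h3 : 8 * Real.log 2 ≤ Real.log 257 := by
    have := Real.log_le_log (show (0 : ℝ) < 2 ^ 8 by norm_num) (show (2 : ℝ) ^ 8 ≤ 257 by norm_num)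
    rwa [Real.log_pow] at this
  have h4 : (3 * n + 1 : ℝ) ≤ m := by exact_mod_cast hnm
  have h5 : (0 : ℝ) ≤ n := Nat.cast_nonneg n
  simp only [he, hf, map_smul, t1, t2, t3, smul_eq_mul, Real.log_inv, Int.cast_ofNat]
  nlinarith

/-- There are a finitely generated group G, n ≥ 1 and an n × n matrix A over the integral group ring of G, invertible over the rational group ring, whose operator T on ℓ²(G)^n in the left regular representation (pinned by its matrix coefficients in a Hilbert basis indexed by pairs (i, g)) has determinant relative to the von Neumann trace strictly between 0 and 1: half the trace of the spectral logarithm of T⋆T is negative. -/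
theorem result :
    ∃ (G : Type) (_ : Group G) (n : ℕ) (A : Matrix (Fin n) (Fin n) (MonoidAlgebra ℤ G))
      (H : Type) (_ : NormedAddCommGroup H) (_ : InnerProductSpace ℂ H) (_ : CompleteSpace H)
      (b : HilbertBasis (Fin n × G) ℂ H) (T : H →L[ℂ] H),
      Group.FG G ∧ 1 ≤ n ∧ IsUnit (A.map (MonoidAlgebra.mapRingHom G (Int.castRingHom ℚ))) ∧
      IsRegularRepOperator b A T ∧ logDet b T < 0 := by
  classical
  have : Fact (Nat.Prime 257) := ⟨by norm_num⟩
  obtain ⟨G, _, z, I, κ, _, _, _, A, B, C, hfg, hz1, hz2, hz3, hcard, hAB⟩ := SC.exists_rect 257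
  let n := Fintype.card (κ ⊕ I)
  let R := MonoidAlgebra ℤ G
  let ε : κ ⊕ I ≃ Fin n := Fintype.equivFin _
  let r : Matrix (κ ⊕ I) (κ ⊕ I) R →+* Matrix (Fin n) (Fin n) R :=
    (Matrix.reindexAlgEquiv ℤ R ε).toRingEquiv.toRingHom
  let ζ : Matrix (κ ⊕ I) (κ ⊕ I) R := Matrix.scalar _ (MonoidAlgebra.of ℤ G z)
  have hζ : ∀ M, Commute ζ M := Matrix.scalar_commute _ fun y => by
    induction y using MonoidAlgebra.induction_on with
    | of g => exact Commute.map (hz3 g) _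
    | add a b ha hb => exact ha.add_right hb
    | smul n a ha => exact ha.smul_right _
  have hR : Rel 257 ζ (Matrix.fromBlocks 1 0 0 0) (Matrix.fromBlocks 0 0 A 0)
      (Matrix.fromBlocks 0 B 0 0) (Matrix.fromBlocks 0 0 0 C) := by
    refine ⟨by simp only [ζ]; rw [← map_mul, ← map_mul, hz2, map_one, map_one], hζ _, hζ _, hζ _,
      hζ _, ?_, ?_, ?_, ?_, ?_, ?_, ?_⟩
    iterate 6 simp [Matrix.fromBlocks_multiply]
    rw [Matrix.fromBlocks_multiply, hAB]
    ext1 (i | i) (j | j) <;> simp [ζ, sub_mul, Matrix.one_apply, -zsmul_eq_mul] <;>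
      split_ifs <;> simp
  obtain ⟨Φ, hΦ⟩ := FK.exists_rep n G
  obtain ⟨T, hT1, hT2, hT3⟩ := FK.exists_tr (FK.bb n G) FK.rho FK.star_rho FK.rho_bb
  have hτ : ∀ M, T.τ (Φ.comp r M) = ∑ i, ((M i i).coeff 1 : ℝ) := by
    intro M
    rw [hT2, opTrace, ← ε.sum_comp]
    refine Finset.sum_congr rfl fun i _ => ?_
    rw [RingHom.comp_apply, (hΦ _).2]
    simp [r]
  have hS : ∀ M, Φ.comp r M ∈ T.S := fun M => hT1 _ (hΦ _).1
  have h1 := (hR.map ((MonoidAlgebra.mapRingHom G (Int.castRingHom ℚ)).mapMatrix.comp r)).isUnit ℚ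
    (by norm_num)
  have h2 := (hR.map (Φ.comp r)).neg T (hS _) (hS _) (hS _) (hS _) hcard
    (by rw [← map_one (Φ.comp r), hτ]; simp [R, MonoidAlgebra.one_def])
    (by rw [← map_one (Φ.comp r), ← map_sub, ← map_mul, hτ]
        simp [R, ζ, sub_mul, MonoidAlgebra.one_def, hz1])
    (by rw [← map_one (Φ.comp r), ← map_sub, ← map_sub, ← map_mul, hτ]
        simp [R, ζ, sub_mul, MonoidAlgebra.one_def, hz1])
    (by rw [← map_one (Φ.comp r), ← map_sub, ← map_mul, hτ]; simp [ζ, sub_mul])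
    (by rw [← map_one (Φ.comp r), ← map_sub, ← map_mul, hτ]; simp [ζ, sub_mul])
  refine ⟨G, inferInstance, n, r (1 + ζ + (1 - ζ) * ((257 : ℤ) • Matrix.fromBlocks 1 0 0 0 +
    Matrix.fromBlocks 0 B 0 0 - Matrix.fromBlocks 0 0 A 0 - Matrix.fromBlocks 0 0 0 C)),
    FK.HH n G, inferInstance, inferInstance, inferInstance, FK.bb n G, Φ _, hfg, ?_, ?_,
    (hΦ _).2, ?_⟩
  · simp only [n, Fintype.card_sum]; omega
  · simpa only [← RingHom.mapMatrix_apply, ← RingHom.comp_apply, map_add, map_mul, map_sub, map_one,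
      map_zsmul] using h1
  · rw [hT3] at h2
    simp only [← RingHom.comp_apply, map_add, map_mul, map_sub, map_one, map_zsmul]
    linarith

end Crest.Agent.S0276
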