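import Crest.Statements.S0370
import Crest.Agent.H2.PD9

set_option autoImplicit false
open Crest Crest.GeometryTopology

namespace Crest.Agent.S0370

/-- There is an absolute constant `C` such that, in every dimension `d`, every finite sequence of vectors of Euclidean norm at most one in `ℝ^d` admits one choice of signs `±1` under which every signed prefix sum has Euclidean norm at most `C * √d`. -/
theorem result :
    ∃ C : ℝ, ∀ (d N : ℕ) (v : Fin N → EuclideanSpace ℝ (Fin d)),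
      (∀ i, ‖v i‖ ≤ 1) →
      ∃ ε : Fin N → ℤ, (∀ i, ε i = 1 ∨ ε i = -1) ∧
        ∀ k : ℕ, k ≤ N →
          ‖∑ i ∈ Finset.univ.filter (fun i : Fin N => (i : ℕ) < k), (ε i : ℝ) • v i‖ ≤ C * Real.sqrt d := by
  refine ⟨10 ^ 15, fun d N v hv => ?_⟩
  rcases Nat.eq_zero_or_pos d with rfl | hd
  · refine ⟨fun _ => 1, fun _ => Or.inl rfl, fun k _ => ?_⟩
    rw [Subsingleton.elim (∑ i ∈ Finset.univ.filter (fun i : Fin N => (i : ℕ) < k),
      (((fun _ => 1 : Fin N → ℤ) i : ℤ) : ℝ) • v i) 0]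
    simp
  let v' : ℕ → EuclideanSpace ℝ (Fin d) := fun i => if h : i < N then v ⟨i, h⟩ else 0
  have hv' : ∀ i, ‖v' i‖ ≤ 1 := by
    intro i
    simp only [v']
    split_ifs
    · exact hv _
    · simp
  obtain ⟨u, hu0, hu, hG⟩ := H2PD.DYN (EuclideanSpace.basisFun (Fin d) ℝ) N hv'
    (η := 1 / 10 ^ 7) (by norm_num) (by norm_num)
  obtain ⟨ε, hε, hk⟩ := H2PD.FINAL N (H2PD.ee v' N) (fun i k => by
    unfold H2PD.ee
    split_ifs
    · exact hv' _
    · simp) u hu0 hu _ hG
  refine ⟨fun i => if ε i = 1 then 1 else -1, fun i => by by_cases h : ε i = 1 <;> simp [h], fun k hkN => ?_⟩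
  have h1 := hk ⟨k, Nat.lt_succ_of_le hkN⟩
  have e : (∑ i ∈ Finset.range N, ε i • H2PD.ee v' N i) ⟨k, Nat.lt_succ_of_le hkN⟩
      = ∑ i ∈ Finset.univ.filter (fun i : Fin N => (i : ℕ) < k),
        (((if ε i = 1 then 1 else -1 : ℤ)) : ℝ) • v i := by
    rw [Finset.sum_apply, Finset.sum_filter, ← Fin.sum_univ_eq_sum_range
      (fun i => (ε i • H2PD.ee v' N i) ⟨k, Nat.lt_succ_of_le hkN⟩)]
    refine Finset.sum_congr rfl fun i _ => ?_
    have hvi : v' i = v i := dif_pos i.2
    simp only [Pi.smul_apply, H2PD.ee, hvi]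
    rcases hε i with h | h
    · simp [h]
    · have : ¬ ((-1 : ℝ) = 1) := by norm_num
      simp [h, this]
  rw [e, Fintype.card_fin] at h1
  have hd' : (1 : ℝ) ≤ d := by exact_mod_cast hd
  refine (pow_le_pow_iff_left₀ (norm_nonneg _) (by positivity) two_ne_zero).1 ?_
  rw [mul_pow, Real.sq_sqrt (by positivity)]
  refine h1.trans ?_
  norm_num
  linarith

end Crest.Agent.S0370
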