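import Crest.Statements.S0504
import Crest.Agent.H6.ImmCirc

set_option autoImplicit false
universe u v
open Crest Crest.LogicCS

namespace Crest.Agent.S0504

/-- There is an absolute threshold n₀ such that, for every n ≥ n₀, every field K of characteristic zero, and every syntactically homogeneous depth-five sum-product circuit over K in the n³ matrix-entry variables (gates may be shared; fan-in is unrestricted; a bottom sum may read any number of leaves) whose output is the top-left entry of the ordered product of the n variable matrices of order n, the number of vertices of the circuit, leaves included, is at least n^(√n/400). -/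
theorem result :
    ∃ n₀ : ℕ, ∀ n ≥ n₀, ∀ (K : Type u) [Field K] [CharZero K]
      (L B P S R : Type v) [Fintype L] [Fintype B] [Fintype P] [Fintype S] [Fintype R]
      (C : Crest.ArithCircuit.SPSPS K (Fin n × Fin n × Fin n) L B P S R),
      C.IsHomogeneous → C.output = Crest.ArithCircuit.imm K n →
        (n : ℝ) ^ (Real.sqrt n / 400) ≤ (C.size : ℝ) := by
  refine ⟨⌈Real.exp 4000⌉₊, fun n hn K _ _ L B P S R _ _ _ _ _ C hC hout => ?_⟩
  have hn1 : Real.exp 4000 ≤ n := (Nat.le_ceil _).trans (by exact_mod_cast hn)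
  have hn0 : (0 : ℝ) < n := (Real.exp_pos _).trans_le hn1
  have hnpos : 0 < n := by exact_mod_cast hn0
  obtain ⟨d, rfl⟩ : ∃ d, n = d + 1 := ⟨n - 1, by omega⟩
  set n : ℝ := ((d + 1 : ℕ) : ℝ) with hndef
  set Lg := Real.log n with hLg
  set r := Real.sqrt n with hr
  have hL : 4000 ≤ Lg := by rw [hLg, Real.le_log_iff_exp_le hn0]; exact hn1
  have hrn : n = r ^ 2 := (Real.sq_sqrt hn0.le).symm
  have hrL : Real.exp (Lg / 2) = r := by
    rw [hr, Real.sqrt_eq_rpow, Real.rpow_def_of_pos hn0]; congr 1; ring
  have hr1 : Lg / 2 + 1 ≤ r := by rw [← hrL]; exact Real.add_one_le_exp _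
  have hr0 : 0 < r := by linarith
  rw [Real.rpow_def_of_pos hn0]
  set b := Lg / 2 with hb
  set a := Lg / 2 + 2 * (Lg / (8 * r)) with ha
  have hab : b ≤ a := by
    have : 0 ≤ Lg / (8 * r) := by positivity
    linarith
  have hb1 : 1 ≤ b := by linarith
  let σ := H6.Imm.grs a b
  obtain ⟨F, p, q, hF0, hpq, hF⟩ :=
    H6.Imm.exists_max (H6.Imm.tau (d := d) (V := Fin (d + 1)) σ) a b (hb1.trans hab) hb1
  have habs := H6.Imm.gr_abs a b (by linarith) hab
  have hlow := H6.Imm.path_rank_lower (K := K) σ a b F a (0 : Fin (d + 1)) (H6.Imm.gr a b) rfl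
    habs (H6.Imm.gr_succ a b) p q hF0 hpq hF
  rw [← H6.Imm.imm_eq, ← hout] at hlow
  set D := F * Real.exp ((p + H6.Imm.kX σ (d + 1)) * a + q * b) with hD
  have hD0 : 0 < D := by positivity
  have hup := H6.Imm.circuit_rank_le C hC (H6.Imm.tau σ) p q _ _ (d + 1)
    (H6.Imm.kX_add_lY σ (d + 1)) a b (D * Real.exp (a / 2)) r (Lg / 32) (Lg / (8 * r) / 4)
    (by positivity) (by positivity)
    (by
      intro m hm
      refine (H6.Imm.rank_prod _ a b F p q _ _ hF m hm).trans ?_
      refine mul_le_mul_of_nonneg_right ?_ (Multiset.prod_nonneg (by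
        intro x hx
        obtain ⟨y, _, rfl⟩ := Multiset.mem_map.1 hx
        exact H6.Imm.W_nonneg _ _ _))
      rw [hD, mul_assoc, ← Real.exp_add]
      refine mul_le_mul_of_nonneg_left (Real.exp_le_exp.2 ?_) hF0.le
      have h1 := abs_le.1 (habs (d + 1))
      rw [H6.Imm.gr_eq] at h1
      linarith [h1.1])
    (by
      intro e he
      refine (H6.Imm.W_small Lg r hL hrL e he).trans (le_of_eq ?_)
      congr 1; ring)
    (by
      refine (H6.Imm.W_one a b (by linarith) hab).trans ?_
      have e1 : (2 : ℝ) ≤ Real.exp 1 := by have := Real.add_one_le_exp (1 : ℝ); linarith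
      calc _ ≤ Real.exp 1 * Real.exp (-b / 2) := by gcongr
        _ ≤ _ := by rw [← Real.exp_add]; apply Real.exp_le_exp.2; linarith)
    (by
      rw [← hndef, hrn]; apply le_of_eq; field_simp; norm_num)
  rw [← hndef] at hup
  simp only [Fintype.card_fin] at hlow
  rw [← hndef] at hlow
  have hS1 : (Fintype.card R : ℝ) ≤ C.size := by
    unfold Crest.ArithCircuit.SPSPS.size; exact_mod_cast (by omega)
  have hS2 : (Fintype.card P : ℝ) + 1 ≤ C.size := by
    unfold Crest.ArithCircuit.SPSPS.size; exact_mod_cast (by omega)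
  refine H6.Imm.final_numeric n _ Lg r hL hrL hrn d (by rw [hndef]; push_cast; ring) a ha
    (Nat.cast_nonneg _) (le_of_mul_le_mul_left ?_ hD0)
  refine hlow.trans ?_
  rw [← mul_assoc D]
  refine mul_le_mul_of_nonneg_right (hup.trans ?_) (by positivity)
  calc _ ≤ (C.size : ℝ) * (C.size * ((n + 1) * (D * Real.exp (a / 2) *
        Real.exp (-(r * (Lg / 32)))))) := by gcongr
    _ = _ := by ring

end Crest.Agent.S0504
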