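import Crest.Statements.S0505
import Crest.Agent.H6.ImmUpper

set_option autoImplicit false
universe u
open Crest Crest.LogicCS

namespace Crest.Agent.S0505

/-- For every field K and every n ≥ 2 there is a syntactically homogeneous depth-five sum-product circuit over K in the n³ matrix-entry variables (shared gates, unrestricted fan-in and bottom support) whose output is the top-left entry of the ordered product of the n variable matrices of order n and whose number of vertices, leaves included, is at most 2n³ + r·n² + r·n^(t+1) + n^(r−1) + 1 with t = ⌈√n⌉, r = ⌈n/t⌉, and also at most n^(√n + 4). Layers are indexed by initial segments of ℕ. -/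
theorem result (K : Type u) [Field K] (n : ℕ)
    (hn : 2 ≤ n) :
    ∃ (l b p s r : ℕ)
      (C : Crest.ArithCircuit.SPSPS K (Fin n × Fin n × Fin n) (Fin l) (Fin b) (Fin p) (Fin s) (Fin r)),
      C.IsHomogeneous ∧ C.output = Crest.ArithCircuit.imm K n ∧
        C.size ≤ 2 * n ^ 3 + ⌈(n : ℝ) / ⌈Real.sqrt n⌉₊⌉₊ * n ^ 2 +
          ⌈(n : ℝ) / ⌈Real.sqrt n⌉₊⌉₊ * n ^ (⌈Real.sqrt n⌉₊ + 1) +
          n ^ (⌈(n : ℝ) / ⌈Real.sqrt n⌉₊⌉₊ - 1) + 1 ∧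
        (C.size : ℝ) ≤ (n : ℝ) ^ (Real.sqrt n + 4) := by
  have hn2 : (2 : ℝ) ≤ n := by exact_mod_cast hn
  have hn0 : (0 : ℝ) < n := by linarith
  have hs1 : 1 ≤ Real.sqrt n := Real.one_le_sqrt.2 (by linarith)
  have hsq : Real.sqrt n * Real.sqrt n = n := Real.mul_self_sqrt hn0.le
  have ht1 : Real.sqrt n ≤ ⌈Real.sqrt n⌉₊ := Nat.le_ceil _
  have ht2 : (⌈Real.sqrt n⌉₊ : ℝ) < Real.sqrt n + 1 := Nat.ceil_lt_add_one (by positivity)
  have ht0 : 0 < ⌈Real.sqrt n⌉₊ := Nat.ceil_pos.2 (by linarith)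
  have hr0 : 0 < ⌈(n : ℝ) / ⌈Real.sqrt n⌉₊⌉₊ := Nat.ceil_pos.2 (by positivity)
  have hr1 : (n : ℝ) / ⌈Real.sqrt n⌉₊ ≤ ⌈(n : ℝ) / ⌈Real.sqrt n⌉₊⌉₊ := Nat.le_ceil _
  have hr2 : ⌈(n : ℝ) / ⌈Real.sqrt n⌉₊⌉₊ ≤ ⌈Real.sqrt n⌉₊ := by
    apply Nat.ceil_mono
    rw [div_le_iff₀ (by positivity)]
    nlinarith
  have hr3 : ⌈(n : ℝ) / ⌈Real.sqrt n⌉₊⌉₊ ≤ n - 1 := by
    rw [Nat.ceil_le, div_le_iff₀ (by positivity), Nat.cast_sub (by omega)]
    have h2 : 2 ≤ ⌈Real.sqrt n⌉₊ := by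
      have : 1 < ⌈Real.sqrt n⌉₊ := by
        rw [Nat.lt_ceil, Nat.cast_one, Real.lt_sqrt (by norm_num)]; linarith
      omega
    have h3 : (2 : ℝ) ≤ ⌈Real.sqrt n⌉₊ := by exact_mod_cast h2
    push_cast
    nlinarith
  have hmul : n ≤ ⌈(n : ℝ) / ⌈Real.sqrt n⌉₊⌉₊ * ⌈Real.sqrt n⌉₊ := by
    rw [div_le_iff₀ (by positivity)] at hr1
    exact_mod_cast hr1
  generalize ⌈(n : ℝ) / ⌈Real.sqrt n⌉₊⌉₊ = r at *
  generalize ⌈Real.sqrt n⌉₊ = t at *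
  obtain ⟨d, rfl⟩ : ∃ d, n = d + 1 := ⟨n - 1, by omega⟩
  obtain ⟨t, rfl⟩ : ∃ d, t = d + 1 := ⟨t - 1, by omega⟩
  obtain ⟨r, rfl⟩ : ∃ d, r = d + 1 := ⟨r - 1, by omega⟩
  obtain ⟨l, b, p, s, r', C, h1, h2, h3⟩ := H6.Imm.exists_circ K d t r hmul
  refine ⟨l, b, p, s, r', C, h1, h2, h3.le, ?_⟩
  rw [h3]
  set n : ℝ := ((d + 1 : ℕ) : ℝ) with hndef
  have hr4 : (r : ℝ) + 1 ≤ n - 1 := by
    have : r + 1 + 1 ≤ d + 1 := by omega
    have h' : ((r + 1 + 1 : ℕ) : ℝ) ≤ n := by rw [hndef]; exact_mod_cast this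
    push_cast at h'; linarith
  have e0 : ((2 * (d + 1) ^ 3 + (r + 1) * (d + 1) ^ 2 + (r + 1) * (d + 1) ^ (t + 1 + 1) +
      (d + 1) ^ (r + 1 - 1) + 1 : ℕ) : ℝ) =
      2 * n ^ 3 + (r + 1) * n ^ 2 + (r + 1) * (n ^ t * n ^ 2) + n ^ r + 1 := by
    rw [hndef, Nat.add_sub_cancel]; push_cast; ring
  rw [e0]
  set x := n ^ Real.sqrt n with hx
  have e1 : n ^ (Real.sqrt n + 4) = x * n ^ 4 := by
    rw [Real.rpow_add hn0, hx]; norm_cast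
  have hx1 : n ≤ x := by
    calc n = n ^ (1 : ℝ) := (Real.rpow_one n).symm
      _ ≤ x := Real.rpow_le_rpow_of_exponent_le (by linarith) hs1
  have hx2 : n ^ t ≤ x := by
    rw [← Real.rpow_natCast]
    apply Real.rpow_le_rpow_of_exponent_le (by linarith)
    push_cast at ht2; linarith
  have hx3 : n ^ r ≤ x := (pow_le_pow_right₀ (by linarith) (by omega)).trans hx2
  rw [e1]
  have a1 : 2 * n ^ 3 ≤ 2 * n ^ 2 * x := by
    calc 2 * n ^ 3 = 2 * n ^ 2 * n := by ring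
      _ ≤ _ := by gcongr
  have a2 : ((r : ℝ) + 1) * n ^ 2 ≤ (n - 1) * (n * x) := by
    rw [sq]; gcongr; linarith
  have a3 : ((r : ℝ) + 1) * (n ^ t * n ^ 2) ≤ (n - 1) * (x * n ^ 2) := by gcongr; linarith
  have a4 : 1 ≤ x := by linarith
  have a5 : 2 * n ^ 2 + (n - 1) * n + (n - 1) * n ^ 2 + 2 ≤ n ^ 4 := by
    obtain ⟨y, hy⟩ : ∃ y, n = y + 2 := ⟨n - 2, by ring⟩
    have hy0 : 0 ≤ y := by linarith
    rw [hy]
    have : 0 ≤ y ^ 2 := by positivity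
    have : 0 ≤ y ^ 3 := by positivity
    have : 0 ≤ y ^ 4 := by positivity
    nlinarith
  calc _ ≤ x * (2 * n ^ 2 + (n - 1) * n + (n - 1) * n ^ 2 + 2) := by nlinarith
    _ ≤ _ := by gcongr

end Crest.Agent.S0505
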