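import Crest.Statements.S0554
import Crest.Agent.H5.QQ.M3

set_option autoImplicit false
open Crest.MathPhysics.Query
open Crest Crest.MathPhysics

namespace Crest.Agent.S0554

/-- For every `k ≥ 2` there are constants `c, C, b > 0` such that for every large enough power of four `m` some total Boolean function on finitely many bits has a quantum query algorithm with at most `C √m (log m)^b` queries and error at most `1/3` on every input, while every randomized algorithm with error at most `1/3` on every input reads at least `c m^{2 - 1/k} / (log m)^2` bits on some input. So no power below four bounds randomized by quantum query complexity. -/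
theorem result (k : ℕ) (hk : 2 ≤ k) :
    ∃ (c C b : ℝ), 0 < c ∧ 0 < C ∧ 0 < b ∧ ∃ m₀ : ℕ, ∀ m : ℕ, m₀ ≤ m → (∃ j : ℕ, m = 4 ^ j) →
      ∃ (n : ℕ) (F : (Fin n → Bool) → Bool),
        (∃ q : ℕ, (q : ℝ) ≤ C * Real.sqrt m * Real.log m ^ b ∧ QuantumComputes F q) ∧
        (∀ r : ℕ, RandomizedComputes F r →
          c * (m : ℝ) ^ (2 - 1 / (k : ℝ)) / Real.log m ^ 2 ≤ r) := by
  exact Crest.Agent.H5.QQ.main k hk

end Crest.Agent.S0554
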